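import Crest.Agent.N222.As.Defs

/-!
# Row 222, `AsphStmt`: change of chart and integrability (helper48)
-/

set_option autoImplicit false
open Set Filter Topology MeasureTheory
open scoped ContDiff Manifold

noncomputable section

namespace Crest.Agent.N222.As

open Crest.Agent.N222.C

variable {n : ℕ}

theorem continuousAt_jd {g : Fin n → Eu n → ℝ} {u : Eu n} (hg : ∀ i, ContDiffAt ℝ ∞ (g i) u) :
    ContinuousAt (jd g) u := by
  have h : ContinuousAt (fun v => (Matrix.of fun i j =>
      fderiv ℝ (g i) v (EuclideanSpace.single j 1) : Matrix (Fin n) (Fin n) ℝ)) u :=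
    continuousAt_pi.2 fun i => continuousAt_pi.2 fun j =>
      (((hg i).fderiv_right (m := ∞) (by simp)).continuousAt).clm_apply continuousAt_const
  exact (Continuous.matrix_det continuous_id).continuousAt.comp h

theorem jd_eq_zero {g : Fin n → Eu n → ℝ} {u : Eu n} {i : Fin n} (h : fderiv ℝ (g i) u = 0) :
    jd g u = 0 :=
  Matrix.det_eq_zero_of_row_eq_zero i fun j => by simp [h]

theorem jd_congr {g g' : Fin n → Eu n → ℝ} {u : Eu n} (h : ∀ i, g i =ᶠ[𝓝 u] g' i) :
    jd g u = jd g' u := by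
  have h1 : ∀ i, fderiv ℝ (g i) u = fderiv ℝ (g' i) u := fun i => (h i).fderiv_eq
  simp only [jd, h1]

/-- chain rule -/
theorem jd_comp {g : Fin n → Eu n → ℝ} {ψ : Eu n → Eu n} {u : Eu n}
    (hg : ∀ i, DifferentiableAt ℝ (g i) (ψ u)) (hψ : DifferentiableAt ℝ ψ u) :
    jd (fun i => g i ∘ ψ) u = jd g (ψ u) * (fderiv ℝ ψ u).det := by
  rw [jd, jd, ContinuousLinearMap.det,
    ← LinearMap.det_toMatrix (EuclideanSpace.basisFun (Fin n) ℝ).toBasis, ← Matrix.det_mul]
  congr 1
  ext i j
  rw [Matrix.of_apply, fderiv_comp u (hg i) hψ, ContinuousLinearMap.comp_apply, Matrix.mul_apply]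
  conv_lhs => rw [← (EuclideanSpace.basisFun (Fin n) ℝ).sum_repr
    (fderiv ℝ ψ u (EuclideanSpace.single j 1)), map_sum]
  simp [LinearMap.toMatrix_apply, mul_comm]

theorem cv : CVStmt := by
  intro n S _ _ _ C O s s' k g hg h1 h2
  set c := ch n s with hc
  set c' := ch n s' with hc'
  set ψ := c.symm.trans c' with hψ
  have hsm : ContDiffOn ℝ ∞ (c' ∘ c.symm) ψ.source := by
    have h : ContMDiffOn (𝓡 n) (𝓡 n) ∞ (c' ∘ c.symm) ψ.source :=
      (contMDiffOn_chart (x := s')).comp ((contMDiffOn_chart_symm (x := s)).mono fun _ hu => hu.1)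
        fun _ hu => hu.2
    exact h.contDiffOn
  have hd : ∀ u ∈ ψ.source, DifferentiableAt ℝ (c' ∘ c.symm) u := fun u hu =>
    (hsm.contDiffAt (ψ.open_source.mem_nhds hu)).differentiableAt (by simp)
  have e1 : O.int s k g = ∫ u in ψ.source, O.loc s k g u := by
    refine setIntegral_eq_of_subset_of_forall_diff_eq_zero c.open_target.measurableSet
      (fun _ hu => hu.1) fun u hu => ?_
    have h := h1 (c.symm u) (c.map_target hu.1) fun h => hu.2 ⟨hu.1, h⟩
    rwa [c.right_inv hu.1] at h
  have e2 : O.int s' k g = ∫ u in ψ.target, O.loc s' k g u := by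
    refine setIntegral_eq_of_subset_of_forall_diff_eq_zero c'.open_target.measurableSet
      (fun _ hu => hu.1) fun u hu => ?_
    have h := h2 (c'.symm u) (c'.map_target hu.1) fun h => hu.2 ⟨hu.1, h⟩
    rwa [c'.right_inv hu.1] at h
  rw [e1, e2, ← ψ.image_source_eq_target]
  have h3 := integral_image_eq_integral_abs_det_fderiv_smul volume ψ.open_source.measurableSet
    (f := c' ∘ c.symm) (f' := fderiv ℝ (c' ∘ c.symm))
    (fun u hu => (hd u hu).hasFDerivAt.hasFDerivWithinAt) ψ.injOn (O.loc s' k g)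
  refine Eq.trans ?_ h3.symm
  refine setIntegral_congr_fun ψ.open_source.measurableSet fun u hu => ?_
  have hu1 : u ∈ c.target := hu.1
  have hu2 : c.symm u ∈ c'.source := hu.2
  have h4 : jd (fun i => g i ∘ c.symm) u =
      jd (fun i => g i ∘ c'.symm) ((c' ∘ c.symm) u) * (fderiv ℝ (c' ∘ c.symm) u).det := by
    rw [← jd_comp (fun i => ((hg i s').contDiffAt
      (c'.open_target.mem_nhds (c'.map_source hu2))).differentiableAt (by simp)) (hd u hu)]
    refine jd_congr fun i => ?_
    filter_upwards [ψ.open_source.mem_nhds hu] with v hv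
    have hv2 : c.symm v ∈ c'.source := hv.2
    exact congrArg (g i) (c'.left_inv hv2).symm
  have h5 := O.tr (sec C (c.symm u)) s s' (by rw [p_sec]; exact c.map_target hu1)
    (by rw [p_sec]; exact hu2)
  rw [p_sec, ← hc, ← hc', c.right_inv hu1] at h5
  have h6 := O.sq (sec C (c.symm u)) s
  have h7 := O.sq (sec C (c.symm u)) s'
  simp only [Ori.loc, smul_eq_mul, ← hc, ← hc', h4, Function.comp_apply, c'.left_inv hu2]
  generalize O.ε (sec C (c.symm u)) s = ε at *
  generalize O.ε (sec C (c.symm u)) s' = ε' at *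
  generalize (fderiv ℝ (c' ∘ c.symm) u).det = D at *
  have h8 : ε * D = ε' * |D| := by
    linear_combination (-(ε * ε')) * h5 + ε' * |D| * h6 - ε * D * h7
  linear_combination (k (c.symm u) * jd (fun i => g i ∘ c'.symm) (c' (c.symm u))) * h8

theorem intg : IntStmt := by
  intro n S _ _ C O s κ K hκ hK hKs hlc
  set c := ch n s with hc
  have h1 : ∀ t ∈ K, ∀ᶠ v in 𝓝 (c t), O.ε (sec C (c.symm v)) s * κ (sec C (c.symm v))
      = O.ε (sec C t) s * κ (sec C t) := by
    intro t ht
    have ht' : C.p (sec C t) ∈ K := by rwa [p_sec]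
    have hU := C.loc.isOpenMap.image_mem_nhds ((O.lc _ s (hKs ht')).and (hlc _ ht'))
    rw [p_sec] at hU
    have h2 : ∀ᶠ t' in 𝓝 t, O.ε (sec C t') s * κ (sec C t') = O.ε (sec C t) s * κ (sec C t) := by
      filter_upwards [hU, c.open_source.mem_nhds (hKs ht)] with t' ht1 ht2
      obtain ⟨x, hx, rfl⟩ := ht1
      obtain ⟨γ, hγ⟩ := C.exists_smul (p_sec C (C.p x))
      rw [← hγ, O.tw γ x s ht2, hκ, ← hx.1, ← hx.2]
      linear_combination (O.ε x s * κ x) * sg_mul_self O.χ γ
    have h3 := c.continuousAt_symm (c.map_source (hKs ht))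
    rw [ContinuousAt, c.left_inv (hKs ht)] at h3
    exact h3.eventually h2
  refine ⟨h1, fun w g hw hg h0 => ?_⟩
  have hK' : IsCompact (c '' K) := hK.image_of_continuousOn (c.continuousOn.mono hKs)
  refine IntegrableOn.of_forall_diff_eq_zero (s := c '' K)
    (ContinuousOn.integrableOn_compact hK' ?_) c.open_target.measurableSet fun u hu => ?_
  · rintro _ ⟨t, ht, rfl⟩
    have ht' := c.map_source (hKs ht)
    have h2 : ContinuousAt (fun v => O.ε (sec C t) s * κ (sec C t) * w (c.symm v) *
        jd (fun i => g i ∘ c.symm) v) (c t) :=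
      (continuousAt_const.mul (hw.continuousAt.comp (c.continuousAt_symm ht'))).mul
        (continuousAt_jd fun i => (hg i s).contDiffAt (c.open_target.mem_nhds ht'))
    refine (h2.congr ?_).continuousWithinAt
    filter_upwards [h1 t ht] with v hv
    rw [← hv, Ori.loc]
    ring
  · have h := h0 (c.symm u) (c.map_target hu.1) fun h => hu.2 ⟨_, h, c.right_inv hu.1⟩
    rwa [c.right_inv hu.1] at h

end Crest.Agent.N222.As

end
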