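import Crest.Agent.N222.T.Cov
import Crest.Agent.N222.C.Alg
import Crest.Agent.R251.Sm82C

/-!
# Row 222, `C.AsphStmt` (helper11): FROZEN definitions and statements

`Fil` : controlled equivariant filling of tuples by singular simplices.  `LCls` : a class given near
the diagonal.  `Ori` : orientation of the universal covering.  `Net`, `pair` : Whitney pairing.
-/

set_option autoImplicit false
open Set Filter Topology MeasureTheory
open scoped ContDiff Manifold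

noncomputable section

namespace Crest.Agent.N222.As

open Crest.Agent.N222.C Crest.Agent.R251.Sm

/-- Euclidean space -/
abbrev Eu (n : ℕ) : Type := EuclideanSpace ℝ (Fin n)

/-- boundary of the simplex -/
def Bd (k : ℕ) : Set (Dn k) := {x | ∃ i, x.1 i = 0}

/-- maps on the boundary of a simplex extend -/
def SFill (W : Type) [TopologicalSpace W] : Prop := ∀ (k : ℕ) (e : Dn (k + 1) → W),
  ContinuousOn e (Bd (k + 1)) → ∃ σ : C(Dn (k + 1), W), ∀ x ∈ Bd (k + 1), σ x = e x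

def FillStmt : Prop := ∀ (W : Type) [TopologicalSpace W] [PathConnectedSpace W],
  (∀ k : ℕ, 1 ≤ k → ∀ w : W, Subsingleton (HomotopyGroup (Fin k) W w)) → SFill W

def PiStmt : Prop := ∀ (S : Type) [TopologicalSpace S] (C : Cov S),
  (∀ k : ℕ, 2 ≤ k → ∀ x : S, Subsingleton (HomotopyGroup (Fin k) S x)) →
  ∀ k : ℕ, 1 ≤ k → ∀ x : C.T, Subsingleton (HomotopyGroup (Fin k) C.T x)

/-- controlled equivariant filling -/
structure Fil {S : Type} [TopologicalSpace S] (C : Cov S) where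
  f : ∀ k : ℕ, (Fin (k + 1) → C.T) → C(Dn k, C.T)
  vert : ∀ k y i, f k y (stdSimplex.vertex i) = y i
  fc : ∀ k y i, (f (k + 1) y).comp (face i) = f k fun j => y (i.succAbove j)
  eqv : ∀ k (g : C.Γ) y t, f k (fun i => g • y i) t = g • f k y t
  small : ∀ k x₀, ∀ U ∈ 𝓝 x₀, ∃ W ∈ 𝓝 x₀, ∀ y, (∀ i, y i ∈ W) → ∀ t, f k y t ∈ U

def FilStmt : Prop := ∀ (n : ℕ) (S : Type) [TopologicalSpace S] [T2Space S] [CompactSpace S]
  [ChartedSpace (Eu n) S] (C : Cov S), SFill C.T → Nonempty (Fil C)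

/-- a twisted cochain, closed near the diagonal, not locally exact -/
structure LCls {S : Type} [TopologicalSpace S] (C : Cov S) (n : ℕ) where
  χ : C.Γ →* ℤˣ
  a : (Fin (n + 1) → C.T) → ℝ
  tw : Tw χ a
  coc : ∀ x₀, ∃ W ∈ 𝓝 x₀, ∀ y : Fin (n + 2) → C.T, (∀ i, y i ∈ W) → cob a y = 0
  nle : ¬ LE χ a

def GlobStmt : Prop := ∀ (S : Type) [TopologicalSpace S] (C : Cov S) (n : ℕ),
  Fil C → LCls C n → Nonempty (Cls C n)

/-- Jacobian determinant of `n` functions -/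
def jd {n : ℕ} (g : Fin n → Eu n → ℝ) (u : Eu n) : ℝ :=
  (Matrix.of fun i j => fderiv ℝ (g i) u (EuclideanSpace.single j 1)).det

/-- **Stokes** -/
def StStmt : Prop := ∀ (n : ℕ) (Ω K : Set (Eu n)) (g : Fin n → Eu n → ℝ) (κ : Eu n → ℝ) (j : Fin n),
  IsOpen Ω → IsCompact K → K ⊆ Ω → (∀ i, ContDiffOn ℝ ∞ (g i) Ω) →
  (∀ u ∈ K, ∀ᶠ v in 𝓝 u, κ v = κ u) →
  (∀ u ∈ Ω, u ∉ K → g j =ᶠ[𝓝 u] 0 ∨ ∃ i, i ≠ j ∧ fderiv ℝ (g i) u = 0) →
  ∫ u in Ω, κ u * jd g u = 0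

/-- **degree one** -/
def DegStmt : Prop := ∀ (n : ℕ) (u₀ : Eu n) (δ R : ℝ) (g : Fin n → Eu n → ℝ), 0 < δ →
  (n + 1) * δ ≤ R → (∀ i, ContDiffOn ℝ ∞ (g i) (Metric.ball u₀ R)) →
  (∀ i, ∀ u ∈ Metric.ball u₀ R, (δ < u i - u₀ i → g i u = 1) ∧ (u i - u₀ i < -δ → g i u = 0)) →
  ∫ u in Metric.ball u₀ R, jd g u ≠ 0

section Mfd

variable (n : ℕ) {S : Type} [TopologicalSpace S] [ChartedSpace (Eu n) S] (C : Cov S)

/-- the preferred chart -/
abbrev ch (s : S) : OpenPartialHomeomorph S (Eu n) := chartAt (Eu n) s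

/-- smooth in all preferred charts -/
def SmS (f : S → ℝ) : Prop := ∀ s, ContDiffOn ℝ ∞ (f ∘ (ch n s).symm) (ch n s).target

/-- orientation of the covering: `ε x s` is the sign of the chart at `s` at the point `x` -/
structure Ori where
  χ : C.Γ →* ℤˣ
  ε : C.T → S → ℝ
  sq : ∀ x s, ε x s * ε x s = 1
  tw : ∀ (g : C.Γ) x s, C.p x ∈ (ch n s).source → ε (g • x) s = sg χ g * ε x s
  lc : ∀ x s, C.p x ∈ (ch n s).source → ∀ᶠ x' in 𝓝 x, ε x' s = ε x s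
  tr : ∀ x s s', C.p x ∈ (ch n s).source → C.p x ∈ (ch n s').source →
    ε x s * |(fderiv ℝ (ch n s' ∘ (ch n s).symm) (ch n s (C.p x))).det|
      = ε x s' * (fderiv ℝ (ch n s' ∘ (ch n s).symm) (ch n s (C.p x))).det

/-- a finite smooth partition of unity with centres `m a`; `z a x` is the lift of `m a` near `x` -/
structure Net where
  ι : Type
  [fin : Fintype ι]
  ρ : ι → S → ℝ
  cont : ∀ a, Continuous (ρ a)
  sm : ∀ a, SmS n (ρ a)
  sum : ∀ s, ∑ a, ρ a s = 1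
  m : ι → S
  sub : ∀ a, tsupport (ρ a) ⊆ (ch n (m a)).source
  z : ι → C.T → C.T
  p_z : ∀ a x, C.p (z a x) = m a
  eqv : ∀ a (g : C.Γ) x, z a (g • x) = g • z a x
  lc : ∀ a x, C.p x ∈ tsupport (ρ a) → ∀ᶠ x' in 𝓝 x, z a x' = z a x

attribute [instance] Net.fin

variable {n C}

/-- the net is finer than the neighbourhoods `V` -/
def Net.Fine (N : Net n C) (V : C.T → Set C.T) : Prop := ∀ x, ∃ (g : C.Γ) (x₀ : C.T),
  g • x ∈ V x₀ ∧ ∀ a, C.p x ∈ tsupport (N.ρ a) → g • N.z a x ∈ V x₀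

/-- a set theoretic section -/
def sec (C : Cov S) (s : S) : C.T := (C.qc.surjective s).choose

theorem p_sec (C : Cov S) (s : S) : C.p (sec C s) = s := (C.qc.surjective s).choose_spec

/-- the density of `k dg_1 ∧ … ∧ dg_n` in the chart at `s` -/
def Ori.loc (O : Ori n C) (s : S) (k : S → ℝ) (g : Fin n → S → ℝ) (u : Eu n) : ℝ :=
  O.ε (sec C ((ch n s).symm u)) s * k ((ch n s).symm u) * jd (fun i => g i ∘ (ch n s).symm) u

/-- its integral -/
def Ori.int (O : Ori n C) (s : S) (k : S → ℝ) (g : Fin n → S → ℝ) : ℝ :=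
  ∫ u in (ch n s).target, O.loc s k g u

/-- the Whitney pairing -/
def pair (O : Ori n C) (N : Net n C) (f : (Fin (n + 1) → C.T) → ℝ) : ℝ :=
  ∑ a : Fin (n + 1) → N.ι, O.int (N.m (a 0))
    (fun t => f (fun i => N.z (a i) (sec C t)) * N.ρ (a 0) t) fun i => N.ρ (a i.succ)

end Mfd

def OriStmt : Prop := ∀ (n : ℕ) (S : Type) [TopologicalSpace S] [ChartedSpace (Eu n) S]
  [IsManifold (𝓡 n) ∞ S] (C : Cov S), Nonempty (Ori n C)

def NetStmt : Prop := ∀ (n : ℕ) (S : Type) [TopologicalSpace S] [T2Space S] [CompactSpace S]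
  [ChartedSpace (Eu n) S] [IsManifold (𝓡 n) ∞ S] (C : Cov S) (V : C.T → Set C.T),
  (∀ x, V x ∈ 𝓝 x) → ∃ N : Net n C, N.Fine V

/-- change of chart -/
def CVStmt : Prop := ∀ (n : ℕ) (S : Type) [TopologicalSpace S] [ChartedSpace (Eu n) S]
  [IsManifold (𝓡 n) ∞ S] (C : Cov S) (O : Ori n C) (s s' : S) (k : S → ℝ) (g : Fin n → S → ℝ),
  (∀ i, SmS n (g i)) →
  (∀ t ∈ (ch n s).source, t ∉ (ch n s').source → O.loc s k g (ch n s t) = 0) →
  (∀ t ∈ (ch n s').source, t ∉ (ch n s).source → O.loc s' k g (ch n s' t) = 0) →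
  O.int s k g = O.int s' k g

/-- integrability, and local constancy of the coefficient -/
def IntStmt : Prop := ∀ (n : ℕ) (S : Type) [TopologicalSpace S] [ChartedSpace (Eu n) S]
  (C : Cov S) (O : Ori n C) (s : S) (κ : C.T → ℝ) (K : Set S),
  (∀ (γ : C.Γ) x, κ (γ • x) = sg O.χ γ * κ x) → IsCompact K → K ⊆ (ch n s).source →
  (∀ x, C.p x ∈ K → ∀ᶠ x' in 𝓝 x, κ x' = κ x) →
  (∀ t ∈ K, ∀ᶠ v in 𝓝 (ch n s t), O.ε (sec C ((ch n s).symm v)) s * κ (sec C ((ch n s).symm v))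
    = O.ε (sec C t) s * κ (sec C t)) ∧
  ∀ (w : S → ℝ) (g : Fin n → S → ℝ), Continuous w → (∀ i, SmS n (g i)) →
    (∀ t ∈ (ch n s).source, t ∉ K → O.loc s (fun t => κ (sec C t) * w t) g (ch n s t) = 0) →
    IntegrableOn (O.loc s (fun t => κ (sec C t) * w t) g) (ch n s).target

/-- the pairing kills local coboundaries -/
def ZeroStmt : Prop := ∀ (n : ℕ) (S : Type) [TopologicalSpace S] [T2Space S] [CompactSpace S]
  [ChartedSpace (Eu n) S] [IsManifold (𝓡 n) ∞ S] (C : Cov S) (O : Ori n C) (N : Net n C)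
  (f : (Fin (n + 1) → C.T) → ℝ) (γ : (Fin n → C.T) → ℝ), 1 ≤ n → Tw O.χ γ →
  (∀ x (a : Fin (n + 1) → N.ι), (∀ i, C.p x ∈ tsupport (N.ρ (a i))) →
    f (fun i => N.z (a i) x) = cob γ fun i => N.z (a i) x) → pair O N f = 0

/-- the local class -/
def LocStmt : Prop := ∀ (n : ℕ) (S : Type) [TopologicalSpace S] [T2Space S] [CompactSpace S]
  [ChartedSpace (Eu n) S] [IsManifold (𝓡 n) ∞ S] (C : Cov S), 1 ≤ n → Nonempty (LCls C n)

theorem asph_of (h1 : FillStmt) (h2 : PiStmt) (h3 : FilStmt) (h4 : GlobStmt) (h5 : LocStmt) :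
    AsphStmt := by
  intro n S _ _ _ _ _ C hn hπ
  have := C.sc
  obtain ⟨F⟩ := h3 n S C (h1 C.T (h2 S C hπ))
  obtain ⟨L⟩ := h5 n S C hn
  exact h4 S C n F L

end Crest.Agent.N222.As

end
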