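import Crest.Agent.N222.As.Defs
import Crest.Agent.N222.C.Cnt

/-!
# Row 222, `C.AsphStmt`: the controlled equivariant filling (`fil`, helper98)

Induction on `k` (`Fl.step`).  The faces already chosen glue to a map on the boundary (`Fl.glue`); among
its extensions choose equivariantly one with `diam (p ∘ σ) ≤ 2 diam (p ∘ τ)` for all extensions `τ`
whenever there is such an extension.  Near `x₀` the boundary map extends inside a small chart ball
(Tietze), so the chosen simplex is small and stays in the sheet (uniqueness of lifts).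
-/

set_option autoImplicit false
open Set Filter Topology

noncomputable section

namespace Crest.Agent.N222.As

open Crest.Agent.N222.C Crest.Agent.R251.Sm

namespace Fl

theorem face_self {k : ℕ} (i : Fin (k + 2)) (s : Dn k) : (face i s) i = 0 := by
  rw [face_apply]
  exact Finset.sum_eq_zero fun a _ => if_neg (Fin.succAbove_ne i a)

theorem face_sa {k : ℕ} (i : Fin (k + 2)) (s : Dn k) (a : Fin (k + 1)) :
    (face i s) (i.succAbove a) = s a := by
  rw [face_apply, Finset.sum_eq_single a, if_pos rfl]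
  · exact fun b _ hb => if_neg fun h => hb (Fin.succAbove_right_injective h)
  · simp

theorem face_inj {k : ℕ} (i : Fin (k + 2)) : Function.Injective (face i : Dn k → Dn (k + 1)) := by
  intro s t h
  ext a
  rw [← face_sa i s, ← face_sa i t, h]

theorem exists_face {k : ℕ} {i : Fin (k + 2)} {t : Dn (k + 1)} (h : t i = 0) :
    ∃ s, face i s = t := by
  have h1 := stdSimplex.sum_eq_one t
  rw [Fin.sum_univ_succAbove _ i, h, zero_add] at h1
  refine ⟨⟨fun a => t (i.succAbove a), fun a => stdSimplex.zero_le t _, h1⟩, ?_⟩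
  ext j
  rcases Fin.eq_self_or_eq_succAbove i j with rfl | ⟨a, rfl⟩
  · rw [face_self, h]
  · rw [face_sa]; rfl

theorem face_mem {k : ℕ} (i : Fin (k + 2)) (s : Dn k) : face i s ∈ Bd (k + 1) :=
  ⟨i, face_self i s⟩

theorem bd_eq (k : ℕ) : Bd (k + 1) = ⋃ i, range (face i : Dn k → Dn (k + 1)) := by
  ext t
  refine ⟨fun ⟨i, hi⟩ => mem_iUnion.2 ⟨i, exists_face hi⟩, fun h => ?_⟩
  obtain ⟨i, s, rfl⟩ := mem_iUnion.1 h
  exact face_mem i s

theorem closed_bd (k : ℕ) : IsClosed (Bd (k + 1)) := by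
  rw [bd_eq]
  exact isClosed_iUnion_of_finite fun i => (isCompact_range (face i).continuous).isClosed

theorem face_face {k : ℕ} (i : Fin (k + 3)) (j : Fin (k + 2)) (u : Dn k) :
    face i (face j u) = face (i.succAbove j) (face (j.predAbove i) u) := by
  change stdSimplex.map _ (stdSimplex.map _ u) = stdSimplex.map _ (stdSimplex.map _ u)
  rw [stdSimplex.map_comp_apply, stdSimplex.map_comp_apply]
  congr 1
  funext a
  exact (Fin.succAbove_succAbove_succAbove_predAbove i j a).symm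

theorem face_vertex {k : ℕ} (i : Fin (k + 2)) (j : Fin (k + 1)) :
    face i (stdSimplex.vertex j : Dn k) = stdSimplex.vertex (i.succAbove j) :=
  stdSimplex.map_vertex _ _

/-- gluing compatible faces -/
theorem glue {W : Type} [TopologicalSpace W] {k : ℕ} (τ : Fin (k + 2) → C(Dn k, W))
    (h : ∀ i j s t, face i s = face j t → τ i s = τ j t) :
    ∃ e : Dn (k + 1) → W, ContinuousOn e (Bd (k + 1)) ∧ ∀ i s, e (face i s) = τ i s := by
  classical
  obtain ⟨e, he⟩ : ∃ e : Dn (k + 1) → W, ∀ i s, e (face i s) = τ i s := by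
    refine ⟨fun t => if H : ∃ q : Fin (k + 2) × Dn k, face q.1 q.2 = t then τ H.choose.1 H.choose.2
      else τ 0 (vd k), fun i s => ?_⟩
    have H : ∃ q : Fin (k + 2) × Dn k, face q.1 q.2 = face i s := ⟨(i, s), rfl⟩
    beta_reduce
    rw [dif_pos H]
    exact h _ _ _ _ H.choose_spec
  refine ⟨e, ?_, he⟩
  rw [bd_eq]
  refine (locallyFinite_of_finite _).continuousOn_iUnion
    (fun i => (isCompact_range (face i).continuous).isClosed) fun i => ?_
  have hi := ((face i : C(Dn k, Dn (k + 1))).continuous.isClosedEmbedding (face_inj i)).isInducing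
  rw [← image_univ, hi.continuousOn_image_iff, show e ∘ face i = τ i from funext (he i)]
  exact (τ i).continuous.continuousOn

/-- local extension (Tietze in a chart) -/
theorem loc_ext {n : ℕ} {S : Type} [TopologicalSpace S] [ChartedSpace (Eu n) S] (C : Cov S)
    (x₀ : C.T) {N : Set C.T} (hN : N ∈ 𝓝 x₀) : ∃ B ∈ 𝓝 x₀, ∀ (k : ℕ) (e : Dn (k + 1) → C.T),
      ContinuousOn e (Bd (k + 1)) → (∀ t ∈ Bd (k + 1), e t ∈ B) →
      ∃ σ : C(Dn (k + 1), C.T), (∀ t ∈ Bd (k + 1), σ t = e t) ∧ ∀ t, σ t ∈ N := by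
  obtain ⟨φ, hφ⟩ : ∃ φ : OpenPartialHomeomorph C.T (Eu n), x₀ ∈ φ.source := by
    obtain ⟨e, hx, -⟩ := C.loc x₀
    exact ⟨e.trans (chartAt (Eu n) (e x₀)), hx, mem_chart_source _ _⟩
  have h1 : φ.target ∩ φ.symm ⁻¹' N ∈ 𝓝 (φ x₀) :=
    inter_mem (φ.open_target.mem_nhds (φ.map_source hφ))
      ((φ.continuousAt_symm (φ.map_source hφ)).preimage_mem_nhds (by rwa [φ.left_inv hφ]))
  obtain ⟨ρ, hρ, hb⟩ := Metric.nhds_basis_closedBall.mem_iff.1 h1
  refine ⟨φ.source ∩ φ ⁻¹' Metric.closedBall (φ x₀) ρ, inter_mem (φ.open_source.mem_nhds hφ)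
    ((φ.continuousAt hφ).preimage_mem_nhds (Metric.closedBall_mem_nhds _ hρ)), fun k e he hB => ?_⟩
  have := Metric.instTietzeExtensionClosedBall.{0, 0} ℝ (φ x₀) hρ
  have hc : ContinuousOn (φ ∘ e) (Bd (k + 1)) := φ.continuousOn.comp he fun t ht => (hB t ht).1
  obtain ⟨g, hg, hg'⟩ := ContinuousMap.exists_forall_mem_restrict_eq (closed_bd k)
    ⟨_, hc.domRestrict⟩ (t := Metric.closedBall (φ x₀) ρ) fun t => (hB t t.2).2
  refine ⟨⟨φ.symm ∘ g, φ.continuousOn_symm.comp_continuous g.continuous fun t => (hb (hg t)).1⟩,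
    fun t ht => ?_, fun t => (hb (hg t)).2⟩
  have : g t = φ (e t) := DFunLike.congr_fun hg' ⟨t, ht⟩
  change φ.symm (g t) = e t
  rw [this, φ.left_inv (hB t ht).1]

/-- small simplices stay in the sheet -/
theorem stay {S : Type} [MetricSpace S] (C : Cov S) (x₀ : C.T) {U : Set C.T} (hU : U ∈ 𝓝 x₀) :
    ∃ r > 0, ∃ N ∈ 𝓝 x₀, InjOn C.p N ∧ ∀ (k : ℕ) (σ : C(Dn k, C.T)) (a : Dn k), σ a ∈ N →
      (∀ t, C.p (σ t) ∈ Metric.ball (C.p x₀) r) → ∀ t, σ t ∈ U := by
  obtain ⟨e, hx, he⟩ := C.loc x₀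
  have h1 : e.target ∩ e.symm ⁻¹' U ∈ 𝓝 (e x₀) :=
    inter_mem (e.open_target.mem_nhds (e.map_source hx))
      ((e.continuousAt_symm (e.map_source hx)).preimage_mem_nhds (by rwa [e.left_inv hx]))
  obtain ⟨r, hr, hb⟩ := Metric.mem_nhds_iff.1 h1
  refine ⟨r, hr, e.source, e.open_source.mem_nhds hx, he ▸ e.injOn, fun k σ a ha hσ t => ?_⟩
  have h2 : ∀ t, C.p (σ t) ∈ e.target ∩ e.symm ⁻¹' U := fun t => hb (by rw [← he]; exact hσ t)
  have hc : Continuous fun t => e.symm (C.p (σ t)) :=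
    e.continuousOn_symm.comp_continuous (C.cov.continuous.comp σ.continuous) fun t => (h2 t).1
  have := C.cov.eq_of_comp_eq σ.continuous hc
    (funext fun t => by
      change C.p (σ t) = C.p (e.symm (C.p (σ t)))
      conv_rhs => rw [he, e.right_inv (he ▸ (h2 t).1)]
      rw [he]) a (by rw [he, e.left_inv ha])
  rw [congrFun this t]
  exact (h2 t).2

/-- one level of the filling -/
structure Lv {S : Type} [TopologicalSpace S] (C : Cov S) (k : ℕ) where
  f : (Fin (k + 1) → C.T) → C(Dn k, C.T)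
  vert : ∀ y i, f y (stdSimplex.vertex i) = y i
  cpt : ∀ (y : Fin (k + 2) → C.T) i j s t, face i s = face j t →
    f (fun a => y (i.succAbove a)) s = f (fun a => y (j.succAbove a)) t
  eqv : ∀ (g : C.Γ) y, f (g • y) = g • f y
  small : ∀ x₀, ∀ U ∈ 𝓝 x₀, ∃ W ∈ 𝓝 x₀, ∀ y, (∀ i, y i ∈ W) → ∀ t, f y t ∈ U

/-- level zero -/
def Lv.zero {S : Type} [TopologicalSpace S] (C : Cov S) : Lv C 0 where
  f y := ContinuousMap.const _ (y 0)
  vert y i := by rw [Subsingleton.elim (α := Fin 1) i 0]; rfl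
  cpt y i j s t h := by
    rcases Fin.eq_self_or_eq_succAbove i j with rfl | ⟨a, rfl⟩
    · rfl
    · exfalso
      have h1 := face_sa i s a
      rw [h, face_self] at h1
      have h2 := stdSimplex.sum_eq_one s
      rw [Fin.sum_univ_succ, Fin.sum_univ_zero, ← Subsingleton.elim (α := Fin 1) a 0, ← h1] at h2
      norm_num at h2
  eqv g y := rfl
  small x₀ U hU := ⟨U, hU, fun y hy _ => hy 0⟩

/-- the size of a simplex -/
def size {S : Type} [MetricSpace S] (C : Cov S) {k : ℕ} (σ : C(Dn k, C.T)) : ℝ :=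
  Metric.diam (range fun t => C.p (σ t))

theorem size_smul {S : Type} [MetricSpace S] (C : Cov S) {k : ℕ} (g : C.Γ) (σ : C(Dn k, C.T)) :
    size C (g • σ) = size C σ := by
  unfold size
  congr 2
  funext t
  exact C.p_smul g _

theorem dist_le_size {S : Type} [MetricSpace S] [CompactSpace S] (C : Cov S) {k : ℕ}
    (σ : C(Dn k, C.T)) (s t : Dn k) : dist (C.p (σ s)) (C.p (σ t)) ≤ size C σ :=
  Metric.dist_le_diam_of_mem Metric.isBounded_of_compactSpace ⟨s, rfl⟩ ⟨t, rfl⟩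

/-- an almost smallest filling exists when the boundary lies in a sheet -/
theorem exists_min {S : Type} [MetricSpace S] [CompactSpace S] (C : Cov S) {k : ℕ}
    (b : Fin (k + 2) → C(Dn k, C.T)) {N : Set C.T} (hN : InjOn C.p N) (hb : ∀ i s, b i s ∈ N)
    (τ₀ : C(Dn (k + 1), C.T)) (h₀ : ∀ i, τ₀.comp (face i) = b i) :
    ∃ σ : C(Dn (k + 1), C.T), (∀ i, σ.comp (face i) = b i) ∧
      ∀ τ : C(Dn (k + 1), C.T), (∀ i, τ.comp (face i) = b i) → size C σ ≤ 2 * size C τ := by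
  set A : Set ℝ := {r | ∃ τ : C(Dn (k + 1), C.T), (∀ i, τ.comp (face i) = b i) ∧ size C τ = r}
  have hA : A.Nonempty := ⟨_, τ₀, h₀, rfl⟩
  have hA' : BddBelow A := ⟨0, by rintro _ ⟨τ, -, rfl⟩; exact Metric.diam_nonneg⟩
  rcases lt_or_ge 0 (sInf A) with h | h
  · obtain ⟨_, ⟨σ, hσ, rfl⟩, h1⟩ := exists_lt_of_csInf_lt hA (show sInf A < 2 * sInf A by linarith)
    refine ⟨σ, hσ, fun τ hτ => ?_⟩
    have := csInf_le hA' (show size C τ ∈ A from ⟨τ, hτ, rfl⟩)
    linarith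
  · refine ⟨ContinuousMap.const _ (b 0 (vd k)), fun i => ?_, fun τ _ => ?_⟩
    · ext s
      refine hN (hb _ _) (hb _ _) (dist_le_zero.1 (le_trans (le_csInf hA ?_) h))
      rintro _ ⟨τ, hτ, rfl⟩
      rw [← hτ i]
      change dist (C.p (b 0 (vd k))) _ ≤ _
      rw [← hτ 0]
      exact dist_le_size C τ _ _
    · have : size C (ContinuousMap.const (Dn (k + 1)) (b 0 (vd k))) = 0 :=
        Metric.diam_subsingleton (by rintro _ ⟨s, rfl⟩ _ ⟨t, rfl⟩; rfl)
      rw [this]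
      exact mul_nonneg zero_le_two Metric.diam_nonneg

theorem step {n : ℕ} {S : Type} [MetricSpace S] [CompactSpace S] [ChartedSpace (Eu n) S]
    (C : Cov S) (hC : SFill C.T) {k : ℕ} (L : Lv C k) : ∃ L' : Lv C (k + 1),
      ∀ y i, (L'.f y).comp (face i) = L.f fun j => y (i.succAbove j) := by
  obtain ⟨P, hP⟩ : ∃ P : (Fin (k + 2) → C.T) → C(Dn (k + 1), C.T) → Prop,
      ∀ y σ, P y σ ↔ ∀ i, σ.comp (face i) = L.f fun j => y (i.succAbove j) := ⟨_, fun _ _ => Iff.rfl⟩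
  have Pe : ∀ (g : C.Γ) y σ, P y σ → P (g • y) (g • σ) := fun g y σ h => (hP _ _).2 fun i => by
    rw [show (g • σ).comp (face i) = g • σ.comp (face i) from rfl, (hP _ _).1 h i, ← L.eqv]
    rfl
  obtain ⟨Q, hQ⟩ : ∃ Q : (Fin (k + 2) → C.T) → C(Dn (k + 1), C.T) → Prop,
      ∀ y σ, Q y σ ↔ ∀ τ, P y τ → size C σ ≤ 2 * size C τ := ⟨_, fun _ _ => Iff.rfl⟩
  have Qe : ∀ (g : C.Γ) y σ, Q y σ → Q (g • y) (g • σ) := fun g y σ h => (hQ _ _).2 fun τ hτ => by
    have := (hQ _ _).1 h (g⁻¹ • τ) (by simpa only [inv_smul_smul] using Pe g⁻¹ _ _ hτ)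
    rwa [size_smul, ← size_smul C g] at this
  choose e ec he using fun y : Fin (k + 2) → C.T =>
    glue (fun i => L.f fun j => y (i.succAbove j)) (L.cpt y)
  have Pb : ∀ y (σ : C(Dn (k + 1), C.T)), (∀ t ∈ Bd (k + 1), σ t = e y t) → P y σ :=
    fun y σ h => (hP _ _).2 fun i => ContinuousMap.ext fun s => (h _ (face_mem i s)).trans (he y i s)
  obtain ⟨F, Fe, hF⟩ := exists_eqv (Γ := C.Γ) (B := Fin (k + 2) → C.T) (N := C(Dn (k + 1), C.T))
    (fun g y h => C.free' (congrFun h 0)) (fun y σ => P y σ ∧ ((∃ σ', P y σ' ∧ Q y σ') → Q y σ))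
    (fun g y σ h => ⟨Pe g y σ h.1, fun ⟨σ', h1, h2⟩ => Qe g y σ (h.2 ⟨g⁻¹ • σ',
      by simpa only [inv_smul_smul] using Pe g⁻¹ _ _ h1,
      by simpa only [inv_smul_smul] using Qe g⁻¹ _ _ h2⟩)⟩)
    (fun y => by
      by_cases h : ∃ σ', P y σ' ∧ Q y σ'
      · obtain ⟨σ, h1, h2⟩ := h
        exact ⟨σ, h1, fun _ => h2⟩
      · obtain ⟨σ, hσ⟩ := hC k (e y) (ec y)
        exact ⟨σ, Pb y σ hσ, fun h' => (h h').elim⟩)
  have fc : ∀ y i s, F y (face i s) = L.f (fun j => y (i.succAbove j)) s := fun y i s =>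
    DFunLike.congr_fun ((hP _ _).1 (hF y).1 i) s
  refine ⟨⟨F, fun y i => ?_, fun y i j s t h => ?_, Fe, fun x₀ U hU => ?_⟩,
    fun y => (hP _ _).1 (hF y).1⟩
  · obtain ⟨j, hj⟩ := exists_ne i
    obtain ⟨a, rfl⟩ := Fin.exists_succAbove_eq hj.symm
    rw [← face_vertex, fc, L.vert]
  · rcases Fin.eq_self_or_eq_succAbove i j with rfl | ⟨a, rfl⟩
    · rw [face_inj _ h]
    · obtain ⟨u, rfl⟩ := exists_face (i := a) (t := s) (by rw [← face_sa i s, h, face_self])
      rw [face_face] at h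
      rw [← face_inj _ h, fc, fc]
      simp only [Fin.succAbove_succAbove_succAbove_predAbove]
  · obtain ⟨r, hr, N, hN, hinj, hst⟩ := stay C x₀ hU
    have hN' : N ∩ C.p ⁻¹' Metric.ball (C.p x₀) (r / 10) ∈ 𝓝 x₀ := inter_mem hN
      (C.cov.continuous.continuousAt.preimage_mem_nhds (Metric.ball_mem_nhds _ (by positivity)))
    obtain ⟨B, hB, hext⟩ := loc_ext (n := n) C x₀ hN'
    obtain ⟨W, hW, hs⟩ := L.small x₀ _ (inter_mem hB hN')
    refine ⟨W, hW, fun y hy => ?_⟩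
    have hb : ∀ (i : Fin (k + 2)) s, L.f (fun j => y (i.succAbove j)) s ∈ B ∩ _ := fun i s =>
      hs _ (fun j => hy _) s
    obtain ⟨τ, hτ, hτ'⟩ := hext k (e y) (ec y) fun t ⟨i, hi⟩ => by
      obtain ⟨s, rfl⟩ := exists_face hi
      rw [he]
      exact (hb i s).1
    obtain ⟨σ, h1, h2⟩ := exists_min C _ hinj (fun i s => (hb i s).2.1) τ ((hP _ _).1 (Pb y τ hτ))
    have h3 := (hQ _ _).1 ((hF y).2 ⟨σ, (hP _ _).2 h1, (hQ _ _).2 fun τ h => h2 τ ((hP _ _).1 h)⟩)
      τ (Pb y τ hτ)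
    have h4 : size C τ ≤ 2 * (r / 10) :=
      (Metric.diam_mono (by rintro _ ⟨t, rfl⟩; exact (hτ' t).2) Metric.isBounded_ball).trans
        (Metric.diam_ball (by positivity))
    have h5 := (hb 0 (vd k)).2
    rw [← fc] at h5
    refine hst _ _ _ h5.1 fun t => ?_
    have h6 := dist_le_size C (F y) t (face 0 (vd k))
    have h7 : dist (C.p (F y (face 0 (vd k)))) (C.p x₀) < r / 10 := h5.2
    have h8 := dist_triangle (C.p (F y t)) (C.p (F y (face 0 (vd k)))) (C.p x₀)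
    rw [Metric.mem_ball]
    linarith

end Fl

theorem fil : FilStmt := by
  intro n S _ _ _ _ C hC
  have := ChartedSpace.secondCountable_of_sigmaCompact (Eu n) S
  let := TopologicalSpace.metrizableSpaceMetric S
  choose nx hnx using fun k (L : Fl.Lv C k) => Fl.step (n := n) C hC L
  let L : ∀ k, Fl.Lv C k := fun k => Nat.rec (Fl.Lv.zero C) nx k
  exact ⟨⟨fun k => (L k).f, fun k => (L k).vert, fun k => hnx k (L k),
    fun k g y t => DFunLike.congr_fun ((L k).eqv g y) t, fun k => (L k).small⟩⟩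

end Crest.Agent.N222.As

end
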