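import Crest.Agent.N222.As.Defs
import Crest.Agent.N222.C.Simp

/-!
# Row 222, `C.AsphStmt` (helper40): `FillStmt` and `PiStmt` from `C/Simp`
-/

set_option autoImplicit false

namespace Crest.Agent.N222.As

open Crest.Agent.N222.C

theorem piT : PiStmt := fun _ _ C h k _ x => C.wc h k x

theorem fill : FillStmt := fun W _ _ h _ _ he => by
  refine WC.ext_simplex (fun k x => ?_) he
  rcases k with _ | k
  · exact HomotopyGroup.pi0EquivZerothHomotopy.subsingleton
  · exact h _ k.succ_pos x

/-- shortcut through `C.cls_of_loc` (no `FilStmt`, `GlobStmt`) -/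
theorem asph_of_loc (h : LocStmt) : AsphStmt := fun n S _ _ _ _ _ C hn hπ =>
  let ⟨L⟩ := h n S C hn
  cls_of_loc (n := n) C (C.wc hπ) L.tw L.coc L.nle

end Crest.Agent.N222.As
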