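import Crest.Agent.N222.As.Defs

/-!
# Row 222, `As.glob` (helper61): a class near the diagonal extends to a global class
-/

set_option autoImplicit false
set_option maxHeartbeats 400000

open Set Filter Topology

noncomputable section

namespace Crest.Agent.N222.As

open Crest.Agent.N222.C Crest.Agent.R251.Sm Crest.GeometryTopology.DeckCochains

theorem glob : GlobStmt := by
  intro S _ C n F L
  let φ₀ : SingSimplex C.T n → ℝ := fun s => L.a fun i => un s (stdSimplex.vertex i)
  let 𝒰 : Set (Set C.T) :=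
    {U | IsOpen U ∧ ∀ y : Fin (n + 2) → C.T, (∀ i, y i ∈ U) → cob L.a y = 0}
  have hc : ∀ x, ∃ U ∈ 𝒰, x ∈ U := fun x => by
    obtain ⟨W, hW, h⟩ := L.coc x
    exact ⟨interior W, ⟨isOpen_interior, fun y hy => h y fun i => interior_subset (hy i)⟩,
      mem_interior_iff_mem_nhds.2 hW⟩
  obtain ⟨β, hβ, -, hs, hn⟩ := extend_small 𝒰 (fun U hU => hU.1) hc φ₀ fun s ⟨U, hU, hs⟩ => by
    rw [← hU.2 (fun i => un s (stdSimplex.vertex i)) fun i => hs ⟨_, rfl⟩]
    refine Finset.sum_congr rfl fun i _ => ?_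
    simp only [φ₀, un_face, zsmul_eq_mul, Int.cast_pow, Int.cast_neg, Int.cast_one,
      ContinuousMap.comp_apply, face, ContinuousMap.coe_mk, stdSimplex.map_vertex]
  refine ⟨⟨L.χ, fun y => β (sx (F.f n y)), fun g y => ?_, funext fun y => ?_,
    fun h => L.nle (h.congr fun x₀ => ?_)⟩⟩
  · have := hn ⟨fun x => g • x, continuous_const_smul g⟩ (AddMonoidHom.mulLeft (sg L.χ g))
      (fun s => by
        simp only [φ₀, un_psh, ContinuousMap.comp_apply, ContinuousMap.coe_mk,
          AddMonoidHom.coe_mulLeft]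
        exact L.tw g _) (sx (F.f n y))
    rw [psh_sx] at this
    exact (congrArg (fun σ => β (sx σ)) (ContinuousMap.ext fun t => F.eqv n g y t)).trans this
  · refine Eq.trans ?_ (congrFun hβ (sx (F.f (n + 1) y)))
    refine Finset.sum_congr rfl fun i _ => ?_
    simp only [simplexFace_sx, F.fc, zsmul_eq_mul, Int.cast_pow, Int.cast_neg, Int.cast_one]
  · obtain ⟨U, hU, hx⟩ := hc x₀
    obtain ⟨W, hW, h⟩ := F.small n x₀ U (hU.1.mem_nhds hx)
    refine ⟨W, hW, fun x hx => ?_⟩
    rw [hs _ ⟨U, hU, by rintro _ ⟨t, rfl⟩; rw [un_sx]; exact h x hx t⟩]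
    simp only [φ₀, un_sx, F.vert]

end Crest.Agent.N222.As

end
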