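import Crest.Agent.N222.As.Defs

/-!
# Row 222, `As.LocStmt`: the local orientation class
-/

set_option autoImplicit false
set_option linter.unusedSectionVars false
open Set Filter Topology MeasureTheory Metric
open scoped ContDiff Manifold

noncomputable section

namespace Crest.Agent.N222.As

open Crest.Agent.N222.C

namespace Lc

variable {n : ℕ}

/-! ### determinants -/

/-- the oriented volume of a simplex -/
def vol (r : Fin (n + 1) → Fin n → ℝ) : ℝ := (Matrix.of fun j i => r j.succ i - r 0 i).det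

theorem vol_eq (r : Fin (n + 1) → Fin n → ℝ) :
    vol r = (Matrix.of fun j => (Fin.cons 1 (r j) : Fin (n + 1) → ℝ)).det := by
  rw [Matrix.det_eq_of_forall_row_eq_smul_add_const
    (B := Matrix.of (Fin.cons (Fin.cons 1 (r 0)) fun j => Fin.cons 0 fun i => r j.succ i - r 0 i :
      Fin (n + 1) → Fin (n + 1) → ℝ)) (Fin.cons 0 fun _ => 1) 0 rfl, Matrix.det_succ_column_zero,
    Fin.sum_univ_succ]
  · simp only [Matrix.of_apply, Fin.cons_zero, Fin.cons_succ, mul_zero, zero_mul,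
      Finset.sum_const_zero, add_zero, Fin.val_zero, pow_zero, one_mul]
    rfl
  · intro j i
    refine Fin.cases ?_ (fun j => ?_) j <;> refine Fin.cases ?_ (fun i => ?_) i <;> simp

theorem cob_vol (r : Fin (n + 2) → Fin n → ℝ) : cob vol r = 0 := by
  have h := Matrix.det_zero_of_column_eq
    (M := Matrix.of fun j => (Fin.cons 1 (Fin.cons 1 (r j)) : Fin (n + 2) → ℝ))
    (i := 0) (j := Fin.succ 0) (Fin.succ_ne_zero _).symm fun _ => rfl
  rw [Matrix.det_succ_column_zero] at h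
  rw [← h, cob]
  refine Finset.sum_congr rfl fun i _ => ?_
  rw [vol_eq]
  simp only [Matrix.of_apply, Fin.cons_zero, mul_one]
  rfl

theorem vol_eq_zero {r : Fin (n + 1) → Fin n → ℝ} (i : Fin n) {b : ℝ} (h : ∀ j, r j i = b) :
    vol r = 0 :=
  Matrix.det_eq_zero_of_column_eq_zero i fun j => by simp [h]

/-- Cauchy-Binet, summed over all maps -/
theorem binet {ι : Type} [Fintype ι] (P Q : ι → Fin n → ℝ) :
    ∑ β : Fin n → ι, (Matrix.of fun j => P (β j)).det * (Matrix.of fun j => Q (β j)).det =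
      n.factorial * (Matrix.of fun i l => ∑ b, P b i * Q b l).det := by
  classical
  have h1 : (Matrix.of fun i l => ∑ b, P b i * Q b l).det =
      ∑ β : Fin n → ι, (∏ l, Q (β l) l) * (Matrix.of fun j => P (β j)).det := by
    have h := (Matrix.detRowAlternating (n := Fin n) (R := ℝ)).toMultilinearMap.map_sum
      fun l b => Q b l • P b
    simp only [MultilinearMap.map_smul_univ, smul_eq_mul] at h
    rw [← Matrix.det_transpose]
    refine Eq.trans (congrArg Matrix.det ?_) h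
    ext l i
    simp [mul_comm]
  have h2 : ∀ σ : Equiv.Perm (Fin n), ∑ β : Fin n → ι, (Matrix.of fun j => P (β j)).det *
      (((Equiv.Perm.sign σ : ℤ) : ℝ) * ∏ l, Q (β (σ l)) l) =
      (Matrix.of fun i l => ∑ b, P b i * Q b l).det := fun σ => by
    rw [h1]
    refine Eq.trans (Finset.sum_congr rfl fun β _ => ?_)
      ((Equiv.arrowCongr σ (Equiv.refl ι)).symm.sum_comp _)
    have h3 := Matrix.det_permute σ (Matrix.of fun j => P (β j))
    have h4 : (Matrix.of fun j => P ((Equiv.arrowCongr σ (Equiv.refl ι)).symm β j)) =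
      (Matrix.of fun j => P (β j)).submatrix σ id := rfl
    rw [h4, h3]
    change _ = (∏ l, Q (β (σ l)) l) * _
    ring
  simp only [fun β : Fin n → ι => Matrix.det_apply' (Matrix.of fun j => Q (β j)), Finset.mul_sum,
    Matrix.of_apply]
  rw [Finset.sum_comm]
  simp only [h2, Finset.sum_const, Finset.card_univ, Fintype.card_perm, Fintype.card_fin,
    nsmul_eq_mul]

theorem exists_coord {u : Eu n} {δ : ℝ} (hδ : 0 < δ) (h : (n + 1) * δ < ‖u‖) : ∃ i, δ < |u i| := by
  by_contra hn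
  push Not at hn
  have h1 : ‖u‖ ^ 2 ≤ n * δ ^ 2 := by
    rw [EuclideanSpace.real_norm_sq_eq]
    calc ∑ i, u i ^ 2 ≤ ∑ _i : Fin n, δ ^ 2 := Finset.sum_le_sum fun i _ => by
          rw [← sq_abs]; exact pow_le_pow_left₀ (abs_nonneg _) (hn i) 2
      _ = n * δ ^ 2 := by simp
  have h2 : (0 : ℝ) ≤ n := Nat.cast_nonneg n
  have h3 := pow_lt_pow_left₀ h (by positivity) two_ne_zero
  nlinarith [mul_nonneg (sq_nonneg (n : ℝ)) (sq_nonneg δ), mul_nonneg h2 (sq_nonneg δ), sq_pos_of_pos hδ]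

/-! ### the cochain -/

variable {S : Type} [TopologicalSpace S] [ChartedSpace (Eu n) S] {C : Cov S}

variable (n) in
/-- closed coordinate balls -/
def Bl (s : S) (r : ℝ) : Set S := {t | t ∈ (ch n s).source ∧ ‖ch n s t - ch n s s‖ ≤ r}

theorem Bl_mono (s : S) {r r' : ℝ} (h : r ≤ r') : Bl n s r ⊆ Bl n s r' :=
  fun _ ht => ⟨ht.1, ht.2.trans h⟩

theorem isCompact_Bl {s : S} {r : ℝ} (h : closedBall (ch n s s) r ⊆ (ch n s).target) :
    IsCompact (Bl n s r) := by
  convert (isCompact_closedBall (ch n s s) r).image_of_continuousOn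
    ((ch n s).continuousOn_symm.mono h) using 1
  ext t
  constructor
  · exact fun ht => ⟨_, mem_closedBall_iff_norm.2 ht.2, (ch n s).left_inv ht.1⟩
  · rintro ⟨u, hu, rfl⟩
    exact ⟨(ch n s).map_target (h hu), by
      rw [(ch n s).right_inv (h hu)]; exact mem_closedBall_iff_norm.1 hu⟩

open Classical in
variable (n) in
/-- the quadrant of a point -/
def Fq (s t : S) (i : Fin n) : ℝ := if 0 < ch n s t i - ch n s s i then 1 else 0

/-- the cochain -/
def co (O : Ori n C) (s : S) (δ : ℝ) (y : Fin (n + 1) → C.T) : ℝ :=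
  (Bl n s ((n + 2) * δ)).indicator 1 (C.p (y 0)) * O.ε (y 0) s * vol fun j => Fq n s (C.p (y j))

theorem tw_co (O : Ori n C) (s : S) (δ : ℝ) : Tw O.χ (co O s δ) := by
  intro g y
  simp only [co, C.p_smul]
  by_cases h : C.p (y 0) ∈ Bl n s ((n + 2) * δ)
  · rw [O.tw g _ s h.1]; ring
  · simp [indicator_of_notMem h]

theorem cob_eq_zero {Y : Type} {k : ℕ} {f : (Fin k → Y) → ℝ} {y : Fin (k + 1) → Y}
    (h : ∀ i : Fin (k + 1), f (fun j => y (i.succAbove j)) = 0) : cob f y = 0 :=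
  Finset.sum_eq_zero fun i _ => by rw [h, mul_zero]

theorem tendsto_ch {s : S} {x : C.T} (hx : C.p x ∈ (ch n s).source) :
    Tendsto (fun x' => ch n s (C.p x')) (𝓝 x) (𝓝 (ch n s (C.p x))) :=
  ((ch n s).continuousAt hx).tendsto.comp C.cov.continuous.continuousAt

theorem ev_source {s : S} {x : C.T} (hx : C.p x ∈ (ch n s).source) :
    ∀ᶠ x' in 𝓝 x, C.p x' ∈ (ch n s).source :=
  C.cov.continuous.continuousAt.preimage_mem_nhds ((ch n s).open_source.mem_nhds hx)

theorem coc_co (O : Ori n C) {s : S} {δ : ℝ} (hδ : 0 < δ)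
    (hc : IsClosed (Bl n s ((n + 2) * δ))) (x₀ : C.T) :
    ∃ W ∈ 𝓝 x₀, ∀ y : Fin (n + 2) → C.T, (∀ i, y i ∈ W) → cob (co O s δ) y = 0 := by
  by_cases h : C.p x₀ ∈ Bl n s ((n + 2) * δ)
  swap
  · exact ⟨_, (hc.isOpen_compl.preimage C.cov.continuous).mem_nhds h, fun y hy =>
      cob_eq_zero fun i => by rw [co, indicator_of_notMem (hy _), zero_mul, zero_mul]⟩
  by_cases h0 : ch n s (C.p x₀) = ch n s s
  · have h1 : ∀ᶠ x in 𝓝 x₀, ch n s (C.p x) ∈ closedBall (ch n s s) ((n + 2) * δ) :=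
      tendsto_ch h.1 (h0 ▸ closedBall_mem_nhds _ (by positivity))
    refine ⟨_, (ev_source h.1).and (h1.and (O.lc x₀ s h.1)), fun y hy => ?_⟩
    rw [← mul_zero (O.ε x₀ s), ← cob_vol fun j => Fq n s (C.p (y j)), ← cob_mul]
    refine Finset.sum_congr rfl fun i _ => ?_
    rw [co, indicator_of_mem (show _ ∈ Bl n s _ from
      ⟨(hy _).1, mem_closedBall_iff_norm.1 (hy _).2.1⟩), (hy _).2.2, Pi.one_apply, one_mul]
  · obtain ⟨i, hi⟩ : ∃ i, ch n s (C.p x₀) i ≠ ch n s s i := by
      by_contra hn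
      push Not at hn
      exact h0 (PiLp.ext hn)
    have h1 : Tendsto (fun x => ch n s (C.p x) i - ch n s s i) (𝓝 x₀)
        (𝓝 (ch n s (C.p x₀) i - ch n s s i)) :=
      (((EuclideanSpace.proj (𝕜 := ℝ) i).continuous.tendsto _).comp (tendsto_ch h.1)).sub_const _
    have h2 : ∀ᶠ x in 𝓝 x₀, Fq n s (C.p x) i = Fq n s (C.p x₀) i := by
      rcases (sub_ne_zero.2 hi).lt_or_gt with h3 | h3
      · filter_upwards [h1.eventually (gt_mem_nhds h3)] with x hx
        rw [Fq, Fq, if_neg hx.not_gt, if_neg h3.not_gt]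
      · filter_upwards [h1.eventually (lt_mem_nhds h3)] with x hx
        rw [Fq, Fq, if_pos hx, if_pos h3]
    exact ⟨_, h2, fun y hy => cob_eq_zero fun j => by
      rw [co, vol_eq_zero i fun l => hy _, mul_zero]⟩

/-- the net is fine near the ball -/
def Near (O : Ori n C) (N : Net n C) (s : S) (δ : ℝ) : Prop :=
  ∀ x a, C.p x ∈ tsupport (N.ρ a) →
    (C.p x ∈ Bl n s ((n + 4) * δ) ∨ N.m a ∈ Bl n s ((n + 4) * δ)) →
    C.p x ∈ (ch n s).source ∧ N.m a ∈ (ch n s).source ∧ ‖ch n s (C.p x) - ch n s (N.m a)‖ < δ ∧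
      O.ε (N.z a x) s = O.ε x s

theorem exists_nhds (O : Ori n C) {s : S} {δ : ℝ} (hδ : 0 < δ)
    (hc : IsClosed (Bl n s ((n + 4) * δ))) : ∃ V : C.T → Set C.T, (∀ x, V x ∈ 𝓝 x) ∧
      ∀ (N : Net n C) (V' : C.T → Set C.T), (∀ x, V' x ⊆ V x) → N.Fine V' → Near O N s δ := by
  classical
  refine ⟨fun x₀ => if C.p x₀ ∈ (ch n s).source then {x | C.p x ∈ (ch n s).source ∧
    ch n s (C.p x) ∈ ball (ch n s (C.p x₀)) (δ / 2) ∧ O.ε x s = O.ε x₀ s} else
    {x | C.p x ∉ Bl n s ((n + 4) * δ)}, fun x₀ => ?_, fun N V' hV hN x a ha hB => ?_⟩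
  · beta_reduce
    split_ifs with h
    · exact (ev_source h).and ((show ∀ᶠ x in 𝓝 x₀, _ from
        tendsto_ch h (ball_mem_nhds _ (half_pos hδ))).and (O.lc x₀ s h))
    · exact (hc.isOpen_compl.preimage C.cov.continuous).mem_nhds fun h' => h h'.1
  · obtain ⟨g, x₀, h1, h2⟩ := hN x
    have h3 := hV _ h1
    have h4 := hV _ (h2 a ha)
    beta_reduce at h3 h4
    split_ifs at h3 h4 with h
    · simp only [mem_ofPred_eq, C.p_smul, N.p_z] at h3 h4
      refine ⟨h3.1, h4.1, ?_, ?_⟩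
      · have := dist_triangle_right (ch n s (C.p x)) (ch n s (N.m a)) (ch n s (C.p x₀))
        rw [← dist_eq_norm]
        linarith [mem_ball.1 h3.2.1, mem_ball.1 h4.2.1]
      · have h5 := h4.2.2.trans h3.2.2.symm
        rw [O.tw g _ s h3.1, O.tw g _ s (by rw [N.p_z]; exact h4.1)] at h5
        exact mul_left_cancel₀ (left_ne_zero_of_mul_eq_one (sg_mul_self O.χ g)) h5
    · simp only [mem_ofPred_eq, C.p_smul, N.p_z] at h3 h4
      exact (hB.elim h3 h4).elim

variable {O : Ori n C} {N : Net n C} {s : S} {δ : ℝ}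

theorem Near.of_ne (h : Near O N s δ) {t : S} {a : N.ι} (ha : N.ρ a t ≠ 0)
    (hB : t ∈ Bl n s ((n + 4) * δ) ∨ N.m a ∈ Bl n s ((n + 4) * δ)) :
    t ∈ (ch n s).source ∧ N.m a ∈ (ch n s).source ∧ ‖ch n s t - ch n s (N.m a)‖ < δ ∧
      O.ε (N.z a (sec C t)) s = O.ε (sec C t) s := by
  have := h (sec C t) a
  rw [p_sec] at this
  exact this (subset_tsupport _ ha) hB

/-- the approximation of the quadrant map -/
def GG (N : Net n C) (s : S) (i : Fin n) (u : Eu n) : ℝ :=
  ∑ b, Fq n s (N.m b) i * N.ρ b ((ch n s).symm u)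

theorem contDiffOn_GG (N : Net n C) (s : S) (i : Fin n) :
    ContDiffOn ℝ ∞ (GG N s i) (ch n s).target :=
  ContDiffOn.sum fun b _ => contDiffOn_const.mul (N.sm b s)

theorem Near.GG_eq (h : Near O N s δ)
    (hb : closedBall (ch n s s) ((n + 4) * δ) ⊆ (ch n s).target) (i : Fin n) {u : Eu n}
    (hu : u ∈ ball (ch n s s) ((n + 4) * δ)) :
    (δ < u i - ch n s s i → GG N s i u = 1) ∧ (u i - ch n s s i < -δ → GG N s i u = 0) := by
  have hu' := hb (ball_subset_closedBall hu)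
  have h1 : ∀ b, N.ρ b ((ch n s).symm u) ≠ 0 → |u i - ch n s (N.m b) i| < δ := fun b hb' => by
    have := (h.of_ne hb' (Or.inl ⟨(ch n s).map_target hu', by
      rw [(ch n s).right_inv hu']; exact (mem_ball_iff_norm.1 hu).le⟩)).2.2.1
    rw [(ch n s).right_inv hu'] at this
    exact (PiLp.norm_apply_le (u - ch n s (N.m b)) i).trans_lt this
  refine ⟨fun hi => ?_, fun hi => Finset.sum_eq_zero fun b _ => ?_⟩
  · rw [← N.sum ((ch n s).symm u)]
    refine Finset.sum_congr rfl fun b _ => ?_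
    by_cases h0 : N.ρ b ((ch n s).symm u) = 0
    · rw [h0, mul_zero]
    · rw [Fq, if_pos (by linarith [(abs_lt.1 (h1 b h0)).2]), one_mul]
  · by_cases h0 : N.ρ b ((ch n s).symm u) = 0
    · rw [h0, mul_zero]
    · rw [Fq, if_neg (by linarith [(abs_lt.1 (h1 b h0)).1]), zero_mul]

/-- the sum over the last `n` indices -/
theorem sum_jd (N : Net n C) (s : S) {u : Eu n} (hu : u ∈ (ch n s).target) (a : N.ι) :
    ∑ β : Fin n → N.ι, (vol fun j => Fq n s (N.m ((Fin.cons a β : Fin (n + 1) → N.ι) j))) *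
      jd (fun i => N.ρ (β i) ∘ (ch n s).symm) u = n.factorial * jd (GG N s) u := by
  have hd : ∀ b, DifferentiableAt ℝ (N.ρ b ∘ (ch n s).symm) u := fun b =>
    ((N.sm b s).contDiffAt ((ch n s).open_target.mem_nhds hu)).differentiableAt (by simp)
  have h0 : ∀ w, ∑ b, fderiv ℝ (N.ρ b ∘ (ch n s).symm) u w = 0 := fun w => by
    rw [← sum_apply, ← fderiv_fun_sum fun b _ => hd b,
      show (fun v => ∑ b, (N.ρ b ∘ (ch n s).symm) v) = fun _ => (1 : ℝ) from
        funext fun v => N.sum _, fderiv_fun_const]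
    rfl
  have h1 : ∀ i w, fderiv ℝ (GG N s i) u w =
      ∑ b, Fq n s (N.m b) i * fderiv ℝ (N.ρ b ∘ (ch n s).symm) u w := fun i w => by
    have := (HasFDerivAt.fun_sum fun b (_ : b ∈ Finset.univ) =>
      (hd b).hasFDerivAt.const_mul (Fq n s (N.m b) i)).fderiv
    refine (congrArg (fun T : Eu n →L[ℝ] ℝ => T w) this).trans ?_
    simp
  refine (binet (fun b i => Fq n s (N.m b) i - Fq n s (N.m a) i)
    fun b j => fderiv ℝ (N.ρ b ∘ (ch n s).symm) u (EuclideanSpace.single j 1)).trans ?_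
  congr 2
  ext i l
  simp only [Matrix.of_apply, h1, sub_mul, Finset.sum_sub_distrib, ← Finset.mul_sum, h0, mul_zero,
    sub_zero]

theorem Near.cut (h : Near O N s δ) (hδ : 0 < δ)
    (hb : closedBall (ch n s s) ((n + 4) * δ) ⊆ (ch n s).target) {u : Eu n}
    (hu : u ∈ (ch n s).target) :
    (∑ a, (Bl n s ((n + 2) * δ)).indicator 1 (N.m a) * N.ρ a ((ch n s).symm u)) * jd (GG N s) u =
      (ball (ch n s s) ((n + 4) * δ)).indicator (jd (GG N s)) u := by
  by_cases h1 : u ∈ ball (ch n s s) ((n + 4) * δ)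
  · rw [indicator_of_mem h1]
    rcases le_or_gt ‖u - ch n s s‖ ((n + 1) * δ) with h2 | h2
    · rw [Finset.sum_congr rfl (g := fun a => N.ρ a ((ch n s).symm u)), N.sum, one_mul]
      intro a _
      by_cases h0 : N.ρ a ((ch n s).symm u) = 0
      · rw [h0, mul_zero]
      · obtain ⟨-, h3, h4, -⟩ := h.of_ne h0 (Or.inl ⟨(ch n s).map_target hu, by
          rw [(ch n s).right_inv hu]; exact (mem_ball_iff_norm.1 h1).le⟩)
        rw [(ch n s).right_inv hu, norm_sub_rev] at h4
        rw [indicator_of_mem (show _ ∈ Bl n s _ from ⟨h3, by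
          linarith [norm_sub_le_norm_sub_add_norm_sub (ch n s (N.m a)) u (ch n s s)]⟩),
          Pi.one_apply, one_mul]
    · obtain ⟨i, hi⟩ := exists_coord hδ h2
      have hc : Continuous fun v : Eu n => v i - ch n s s i := by fun_prop
      have h3 : fderiv ℝ (GG N s i) u = 0 := by
        rcases lt_abs.1 hi with h4 | h4
        · rw [Filter.EventuallyEq.fderiv_eq (f := fun _ => (1 : ℝ)), fderiv_fun_const]
          · rfl
          filter_upwards [isOpen_ball.mem_nhds h1, hc.continuousAt.eventually (lt_mem_nhds h4)]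
            with v hv hv' using (h.GG_eq hb i hv).1 hv'
        · rw [Filter.EventuallyEq.fderiv_eq (f := fun _ => (0 : ℝ)), fderiv_fun_const]
          · rfl
          filter_upwards [isOpen_ball.mem_nhds h1, hc.continuousAt.eventually
            (gt_mem_nhds (lt_neg.1 h4))] with v hv hv' using (h.GG_eq hb i hv).2 hv'
      have h4 : jd (GG N s) u = 0 := Matrix.det_eq_zero_of_row_eq_zero i fun j => by simp [h3]
      rw [h4, mul_zero]
  · rw [indicator_of_notMem h1, Finset.sum_eq_zero, zero_mul]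
    intro a _
    by_cases h0 : N.ρ a ((ch n s).symm u) = 0
    · rw [h0, mul_zero]
    · rw [indicator_of_notMem, zero_mul]
      intro h2
      have h4 := (h.of_ne h0 (Or.inr (Bl_mono s (by nlinarith) h2))).2.2.1
      rw [(ch n s).right_inv hu] at h4
      refine h1 (mem_ball_iff_norm.2 ?_)
      linarith [norm_sub_le_norm_sub_add_norm_sub u (ch n s (N.m a)) (ch n s s), h2.2]

/-- the value of the pairing -/
theorem Near.pair_eq [IsManifold (𝓡 n) ∞ S] (hcv : CVStmt) (hint : IntStmt) (h : Near O N s δ)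
    (hδ : 0 < δ) (hb : closedBall (ch n s s) ((n + 4) * δ) ⊆ (ch n s).target) :
    pair O N (co O s δ) = n.factorial * ∫ u in ball (ch n s s) ((n + 4) * δ), jd (GG N s) u := by
  set A : (Fin (n + 1) → N.ι) → ℝ := fun α =>
    (Bl n s ((n + 2) * δ)).indicator 1 (N.m (α 0)) * vol fun j => Fq n s (N.m (α j)) with hA
  set κ : (Fin (n + 1) → N.ι) → C.T → ℝ := fun α x =>
    (ch n s).source.indicator 1 (C.p x) * O.ε x s * A α with hκ
  have h1 : ∀ (α : Fin (n + 1) → N.ι) t, A α ≠ 0 → N.ρ (α 0) t ≠ 0 →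
      t ∈ Bl n s ((n + 4) * δ) ∧ O.ε (N.z (α 0) (sec C t)) s = O.ε (sec C t) s := by
    intro α t h2 h3
    have h4 : N.m (α 0) ∈ Bl n s ((n + 2) * δ) := mem_of_indicator_ne_zero (left_ne_zero_of_mul h2)
    obtain ⟨h5, -, h6, h7⟩ := h.of_ne h3 (Or.inr (Bl_mono s (by nlinarith) h4))
    refine ⟨⟨h5, ?_⟩, h7⟩
    linarith [norm_sub_le_norm_sub_add_norm_sub (ch n s t) (ch n s (N.m (α 0))) (ch n s s), h4.2]
  have h2 : ∀ α : Fin (n + 1) → N.ι,
      (fun t => co O s δ (fun i => N.z (α i) (sec C t)) * N.ρ (α 0) t) =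
        fun t => κ α (sec C t) * N.ρ (α 0) t := fun α => funext fun t => by
    have e : co O s δ (fun i => N.z (α i) (sec C t)) = O.ε (N.z (α 0) (sec C t)) s * A α := by
      simp only [co, N.p_z, hA]; ring
    rw [e, hκ]
    by_cases h3 : N.ρ (α 0) t = 0
    · rw [h3, mul_zero, mul_zero]
    by_cases h4 : A α = 0
    · simp only [h4, mul_zero]
    · simp only [p_sec, indicator_of_mem (h1 α t h4 h3).1.1, (h1 α t h4 h3).2, Pi.one_apply,
        one_mul]
  have h3 : ∀ (α : Fin (n + 1) → N.ι) s' t, t ∈ (ch n s').source →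
      (t ∉ Bl n s ((n + 4) * δ) ∨ t ∉ (ch n (N.m (α 0))).source) →
      O.loc s' (fun t => κ α (sec C t) * N.ρ (α 0) t) (fun i => N.ρ (α i.succ)) (ch n s' t) = 0 := by
    intro α s' t ht h4
    have h5 : κ α (sec C t) * N.ρ (α 0) t = 0 := by
      by_contra h5
      have h6 := right_ne_zero_of_mul h5
      exact h4.elim (fun h7 => h7 (h1 α t (right_ne_zero_of_mul (left_ne_zero_of_mul h5)) h6).1)
        fun h7 => h7 (N.sub _ (subset_tsupport _ h6))
    rw [Ori.loc, (ch n s').left_inv ht, h5, mul_zero, zero_mul]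
  have h4 : ∀ α : Fin (n + 1) → N.ι, IntegrableOn (O.loc s
      (fun t => κ α (sec C t) * N.ρ (α 0) t) fun i => N.ρ (α i.succ)) (ch n s).target := fun α => by
    refine (hint n S C O s (κ α) (Bl n s ((n + 4) * δ)) (fun g x => ?_) (isCompact_Bl hb)
      (fun _ ht => ht.1) fun x hx => ?_).2 _ _ (N.cont _) (fun i => N.sm _)
      fun t ht ht' => h3 α s t ht (Or.inl ht')
    · simp only [hκ, C.p_smul]
      by_cases hx : C.p x ∈ (ch n s).source
      · rw [O.tw g x s hx]; ring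
      · simp [indicator_of_notMem hx]
    · filter_upwards [ev_source hx.1, O.lc x s hx.1] with x' h5 h6
      simp only [hκ, indicator_of_mem h5, indicator_of_mem hx.1, h6, Pi.one_apply]
  have h5 : pair O N (co O s δ) = ∑ α : Fin (n + 1) → N.ι,
      O.int s (fun t => κ α (sec C t) * N.ρ (α 0) t) fun i => N.ρ (α i.succ) :=
    Finset.sum_congr rfl fun α _ => by
      rw [h2]
      exact hcv n S C O _ s _ _ (fun i => N.sm _)
        (fun t ht ht' => h3 α _ t ht (Or.inl fun h6 => ht' h6.1))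
        fun t ht ht' => h3 α _ t ht (Or.inr ht')
  rw [h5]
  simp only [Ori.int]
  rw [← integral_finsetSum _ fun α _ => h4 α, ← inter_eq_right.2 (ball_subset_closedBall.trans hb),
    ← setIntegral_indicator measurableSet_ball, ← integral_const_mul]
  refine setIntegral_congr_fun (ch n s).open_target.measurableSet fun u hu => ?_
  have h6 : ∀ α : Fin (n + 1) → N.ι,
      O.loc s (fun t => κ α (sec C t) * N.ρ (α 0) t) (fun i => N.ρ (α i.succ)) u =
        A α * N.ρ (α 0) ((ch n s).symm u) * jd (fun i => N.ρ (α i.succ) ∘ (ch n s).symm) u := by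
    intro α
    simp only [Ori.loc, hκ, p_sec, indicator_of_mem ((ch n s).map_target hu), Pi.one_apply]
    linear_combination (A α * N.ρ (α 0) ((ch n s).symm u) *
      jd (fun i => N.ρ (α i.succ) ∘ (ch n s).symm) u) * O.sq (sec C ((ch n s).symm u)) s
  simp only [h6]
  rw [← h.cut hδ hb hu, ← (Fin.consEquiv fun _ => N.ι).sum_comp, Fintype.sum_prod_type,
    Finset.sum_mul, Finset.mul_sum]
  refine Finset.sum_congr rfl fun a _ => ?_
  rw [mul_left_comm, ← sum_jd N s hu a, Finset.mul_sum]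
  refine Finset.sum_congr rfl fun β _ => ?_
  simp only [hA, Fin.consEquiv_apply, Fin.cons_zero, Fin.cons_succ]
  ring

end Lc

open Lc in
theorem loc (ho : OriStmt) (hn : NetStmt) (hcv : CVStmt) (hint : IntStmt) (hz : ZeroStmt)
    (hd : DegStmt) : LocStmt := by
  intro n S _ _ _ _ _ C h1
  obtain ⟨O⟩ := ho n S C
  obtain ⟨x⟩ : Nonempty C.T := inferInstance
  obtain ⟨R, hR, hb⟩ := nhds_basis_closedBall.mem_iff.1
    ((ch n (C.p x)).open_target.mem_nhds (mem_chart_target _ (C.p x)))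
  obtain ⟨δ, hδ, rfl⟩ : ∃ δ : ℝ, 0 < δ ∧ R = (n + 4) * δ :=
    ⟨R / (n + 4), by positivity, by field_simp⟩
  refine ⟨⟨O.χ, co O (C.p x) δ, tw_co O _ δ, coc_co O hδ (isCompact_Bl
    ((closedBall_subset_closedBall (by nlinarith)).trans hb)).isClosed, ?_⟩⟩
  rintro ⟨γ, hγ, hW⟩
  choose W hW hW' using hW
  obtain ⟨V, hV, hV'⟩ := exists_nhds O hδ (isCompact_Bl hb).isClosed
  obtain ⟨N, hN⟩ := hn n S C (fun y => W y ∩ V y) fun y => inter_mem (hW y) (hV y)
  have h2 := hV' N _ (fun _ => inter_subset_right) hN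
  have h3 := hz n S C O N (co O (C.p x) δ) γ h1 hγ fun y α hα => by
    obtain ⟨g, x₀, -, h4⟩ := hN y
    have h5 := hW' x₀ _ fun i => (h4 (α i) (hα i)).1
    rw [tw_co O _ δ g, hγ.cob g] at h5
    exact mul_left_cancel₀ (left_ne_zero_of_mul_eq_one (sg_mul_self O.χ g)) h5
  rw [h2.pair_eq hcv hint hδ hb] at h3
  exact hd n _ δ _ _ hδ (by nlinarith)
    (fun i => (contDiffOn_GG N _ i).mono (ball_subset_closedBall.trans hb))
    (fun i u hu => h2.GG_eq hb i hu)
    ((mul_eq_zero.1 h3).resolve_left (Nat.cast_ne_zero.2 n.factorial_ne_zero))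

end Crest.Agent.N222.As

end
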