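import Crest.Agent.N222.As.Defs

/-!
# Row 222, `C.AsphStmt`: existence of fine nets
-/

set_option autoImplicit false
open Set Filter Topology
open scoped ContDiff Manifold

noncomputable section

namespace Crest.Agent.N222.As

open Crest.Agent.N222.C

namespace Nt

variable {S : Type} [TopologicalSpace S] (C : Cov S)

/-- star refinement -/
theorem exists_star [CompactSpace S] [T2Space S] (U : S → Set S) (hU : ∀ s, U s ∈ 𝓝 s) :
    ∃ W : S → Set S, (∀ s, W s ∈ 𝓝 s) ∧ ∀ t, ∃ y, ∀ s, t ∈ W s → W s ⊆ U y := by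
  let _ : UniformSpace S := uniformSpaceOfCompactR1
  obtain ⟨V, hV, h⟩ := lebesgue_number_lemma_nhds (U := U) isCompact_univ fun s _ => hU s
  obtain ⟨W, hW, hs, hc⟩ := comp_symm_of_uniformity hV
  refine ⟨fun s => UniformSpace.ball s W, fun s => UniformSpace.ball_mem_nhds s hW, fun t => ?_⟩
  obtain ⟨y, hy⟩ := h t (mem_univ t)
  exact ⟨y, fun s h1 u h2 => hy (hc ⟨s, hs h1, h2⟩)⟩

/-- the translates of `U` are disjoint -/
def Dj (U : Set C.T) : Prop := ∀ (g : C.Γ) x, x ∈ U → g • x ∈ U → g = 1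

theorem exists_dj (x : C.T) {V : Set C.T} (hV : V ∈ 𝓝 x) :
    ∃ U ⊆ V, IsOpen U ∧ x ∈ U ∧ Dj C U := by
  obtain ⟨W, hW, h⟩ := C.qc.disjoint x
  obtain ⟨U, h1, h2, h3⟩ := mem_nhds_iff.1 (inter_mem hV hW)
  exact ⟨U, fun y hy => (h1 hy).1, h2, h3, fun g y a b =>
    h g ⟨g • y, ⟨y, (h1 a).2, rfl⟩, (h1 b).2⟩⟩

theorem exists_conn [LocallyConnectedSpace S] (x : C.T) {V : Set C.T} (hV : V ∈ 𝓝 x) :
    ∃ U ⊆ V, IsOpen U ∧ x ∈ U ∧ IsPreconnected U := by
  obtain ⟨e, hx, -⟩ := C.loc x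
  have h1 : e.target ∩ e.symm ⁻¹' V ∈ 𝓝 (e x) :=
    inter_mem (e.open_target.mem_nhds (e.map_source hx))
      ((e.continuousAt_symm (e.map_source hx)).preimage_mem_nhds (by rwa [e.left_inv hx]))
  obtain ⟨K, hK, ho, hm, hc⟩ := locallyConnectedSpace_iff_subsets_isOpen_isConnected.1 ‹_› _ _ h1
  exact ⟨e.symm '' K, by rintro _ ⟨y, hy, rfl⟩; exact (hK hy).2,
    e.symm.isOpen_image_of_subset_source ho fun y hy => (hK hy).1, ⟨e x, hm, e.left_inv hx⟩,
    hc.2.image _ (e.continuousOn_symm.mono fun y hy => (hK hy).1)⟩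

theorem exists_coc (U : Set C.T) : ∃ c : C.T → C.Γ, (∀ (g : C.Γ) x, c (g • x) = g * c x) ∧
    ∀ x, C.p x ∈ C.p '' U → (c x)⁻¹ • x ∈ U := by
  have h : ∀ s, ∃ y, C.p y = s ∧ (s ∈ C.p '' U → y ∈ U) := fun s => by
    by_cases hs : s ∈ C.p '' U
    · obtain ⟨y, hy, e⟩ := hs
      exact ⟨y, e, fun _ => hy⟩
    · exact ⟨sec C s, p_sec C s, fun h => absurd h hs⟩
  choose σ h1 h2 using h
  choose c hc using fun x => C.exists_smul (h1 (C.p x)).symm
  refine ⟨c, fun g x => ?_, fun x hx => ?_⟩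
  · have e := hc (g • x)
    rw [C.p_smul] at e
    refine (inv_mul_eq_one.1 (C.free' (x := σ (C.p x)) ?_))
    rw [mul_smul, mul_smul, hc, inv_smul_eq_iff, e]
  · rw [inv_smul_eq_iff.2 (hc x).symm]
    exact h2 _ hx

theorem coc_lc {U : Set C.T} (ho : IsOpen U) (hd : Dj C U) {c : C.T → C.Γ}
    (hc : ∀ x, C.p x ∈ C.p '' U → (c x)⁻¹ • x ∈ U) {x : C.T} (hx : C.p x ∈ C.p '' U) :
    ∀ᶠ x' in 𝓝 x, c x' = c x := by
  filter_upwards [(continuous_const_smul (c x)⁻¹).continuousAt.preimage_mem_nhds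
    (ho.mem_nhds (hc x hx))] with y hy
  refine (inv_mul_eq_one.1 (hd _ _ (hc y ⟨_, hy, C.p_smul _ _⟩) ?_)).symm
  rwa [mul_smul, smul_inv_smul]

theorem subset_of_dj {V A : Set C.T} (ho : IsOpen V) (hd : Dj C V) (hA : IsPreconnected A)
    (h : ∀ x ∈ A, C.p x ∈ C.p '' V) (hn : (A ∩ V).Nonempty) : A ⊆ V := by
  refine hA.subset_left_of_subset_union (v := ⋃ g : C.Γ, ⋃ _ : g ≠ 1, (g • ·) ⁻¹' V) ho
    (isOpen_iUnion fun g => isOpen_iUnion fun _ => ho.preimage (continuous_const_smul g))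
    (Set.disjoint_left.2 fun x h1 h2 => ?_) (fun x hx => ?_) hn
  · obtain ⟨g, hg, h3⟩ := mem_iUnion₂.1 h2
    exact hg (hd g x h1 h3)
  · obtain ⟨y, hy, e⟩ := h x hx
    obtain ⟨g, rfl⟩ := C.exists_smul e
    by_cases hg : g = 1
    · exact Or.inl (by simpa [hg] using hy)
    · exact Or.inr (mem_iUnion₂.2 ⟨g, hg, hy⟩)

end Nt

open Nt in
theorem net : NetStmt := by
  intro n S _ _ _ _ _ C V hV
  have : LocallyConnectedSpace S := ChartedSpace.locallyConnectedSpace (Eu n) S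
  choose V' v1 v2 v3 v4 using fun x => exists_dj C x (hV x)
  have hop := C.loc.isOpenMap
  obtain ⟨W, hW, hst⟩ := exists_star (fun s => C.p '' V' (sec C s)) fun s =>
    (hop _ (v2 _)).mem_nhds ⟨_, v3 _, p_sec C s⟩
  have key : ∀ s, ∃ U : Set C.T, IsOpen U ∧ sec C s ∈ U ∧ IsPreconnected U ∧ Dj C U ∧
      C.p '' U ⊆ (ch n s).source ∩ W s := fun s => by
    obtain ⟨A, a1, a2, a3, a4⟩ := exists_dj C (sec C s) (V := C.p ⁻¹' ((ch n s).source ∩ W s))
      (C.cov.continuous.continuousAt.preimage_mem_nhds (by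
        rw [p_sec]; exact inter_mem (chart_source_mem_nhds _ s) (hW s)))
    obtain ⟨U, b1, b2, b3, b4⟩ := exists_conn C _ (a2.mem_nhds a3)
    exact ⟨U, b2, b3, b4, fun g x h1 h2 => a4 g x (b1 h1) (b1 h2),
      image_subset_iff.2 (b1.trans a1)⟩
  choose U u1 u2 u3 u4 u5 using key
  obtain ⟨t, -, ht⟩ := isCompact_univ.elim_nhds_subcover (fun s => C.p '' U s) fun s _ =>
    (hop _ (u1 s)).mem_nhds ⟨_, u2 s, p_sec C s⟩
  obtain ⟨ρ, hρ⟩ := SmoothPartitionOfUnity.exists_isSubordinate (𝓡 n) isClosed_univ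
    (fun a : t => C.p '' U a) (fun a => hop _ (u1 a)) fun s hs => by
      obtain ⟨a, ha, h⟩ := mem_iUnion₂.1 (ht hs)
      exact mem_iUnion.2 ⟨⟨a, ha⟩, h⟩
  choose c c1 c2 using fun s => exists_coc C (U s)
  refine ⟨{ ι := t
            ρ := fun a => ρ a
            cont := fun a => (ρ a).contMDiff.continuous
            sm := fun a s => contMDiffOn_iff_contDiffOn.1
              ((ρ a).contMDiff.comp_contMDiffOn contMDiffOn_chart_symm)
            sum := fun s => by rw [← finsum_eq_sum_of_fintype]; exact ρ.sum_eq_one (mem_univ s)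
            m := fun a => a
            sub := fun a => (hρ a).trans ((u5 a).trans inter_subset_left)
            z := fun a x => c a x • sec C a
            p_z := fun a x => by rw [C.p_smul, p_sec]
            eqv := fun a g x => by rw [c1, mul_smul]
            lc := fun a x hx => (coc_lc C (u1 a) (u4 a) (c2 a) (hρ a hx)).mono fun y hy => by
              rw [hy] }, fun x => ?_⟩
  obtain ⟨y, hy⟩ := hst (C.p x)
  obtain ⟨a₀, -, h₀⟩ := mem_iUnion₂.1 (ht (mem_univ (C.p x)))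
  obtain ⟨w, hw, e⟩ := hy a₀ (u5 a₀ h₀).2 (u5 a₀ h₀).2
  obtain ⟨g, rfl⟩ := C.exists_smul e
  refine ⟨g, sec C y, v1 _ hw, fun a ha => v1 _ ?_⟩
  have h1 := hρ a ha
  refine subset_of_dj C (v2 _) (v4 _) ((u3 a).image (fun u => g • c a x • u) (by fun_prop))
    ?_ ⟨_, ⟨_, c2 a x h1, rfl⟩, by simpa only [smul_inv_smul] using hw⟩ ⟨_, u2 a, rfl⟩
  rintro _ ⟨u, hu, rfl⟩
  rw [C.p_smul, C.p_smul]
  exact hy a (u5 a h1).2 (u5 a ⟨u, hu, rfl⟩).2

end Crest.Agent.N222.As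

end
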