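import Crest.Agent.N222.As.Defs

/-!
# Row 222, `As.ori` (helper61): the universal covering of a manifold is oriented
-/

set_option autoImplicit false
set_option maxHeartbeats 400000

open Set Filter Topology
open scoped ContDiff Manifold

noncomputable section

namespace Crest.Agent.N222.As

open Crest.Agent.N222.C

namespace Ori1

theorem lpc {S : Type} [TopologicalSpace S] [LocallyPathConnectedSpace S] (C : Cov S) :
    LocallyPathConnectedSpace C.T := by
  let _ : ChartedSpace S C.T :=
    { atlas := univ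
      chartAt := fun x => (C.loc x).choose
      mem_chart_source := fun x => (C.loc x).choose_spec.1
      chart_mem_atlas := fun _ => trivial }
  exact ChartedSpace.locallyPathConnectedSpace S C.T

/-- a locally constant sign cocycle trivialises on the simply connected covering -/
theorem exists_eps {S : Type} [TopologicalSpace S] [LocallyPathConnectedSpace S] (C : Cov S)
    {B : S → Set S} (hB : ∀ s, IsOpen (B s)) (hB' : ∀ s, s ∈ B s) {τ : S → S → S → ℤˣ}
    (h1 : ∀ s, ∀ t ∈ B s, τ s s t = 1) (h2 : ∀ s s', ContinuousOn (τ s s') (B s ∩ B s'))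
    (h3 : ∀ s s' s'', ∀ t ∈ B s ∩ B s' ∩ B s'', τ s' s'' t * τ s s' t = τ s s'' t) :
    ∃ (χ : C.Γ →* ℤˣ) (e : C.T → S → ℤˣ),
      (∀ (g : C.Γ) x s, C.p x ∈ B s → e (g • x) s = χ g * e x s) ∧
      (∀ x s, C.p x ∈ B s → ∀ᶠ x' in 𝓝 x, e x' s = e x s) ∧
      ∀ x s s', C.p x ∈ B s → C.p x ∈ B s' → e x s' = τ s s' (C.p x) * e x s := by
  let Z : FiberBundleCore S S ℤˣ :=
    { baseSet := B
      isOpen_baseSet := hB
      indexAt := id
      mem_baseSet_at := hB'
      coordChange := fun s s' t u => τ s s' t * u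
      coordChange_self := fun s t ht u => by rw [h1 s t ht, one_mul]
      continuousOn_coordChange := fun s s' =>
        ((h2 s s').comp continuous_fst.continuousOn fun p hp => hp.1).mul
          continuous_snd.continuousOn
      coordChange_comp := fun s s' s'' t ht u => by rw [← mul_assoc, h3 s s' s'' t ht] }
  have cov : IsCoveringMap Z.proj := FiberBundle.isCoveringMap
  have := C.sc
  have := lpc C
  obtain ⟨x₀⟩ : Nonempty C.T := inferInstance
  obtain ⟨L, ⟨-, hL⟩, -⟩ := cov.existsUnique_continuousMap_lifts ⟨C.p, C.cov.continuous⟩ x₀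
    ⟨C.p x₀, (1 : ℤˣ)⟩ rfl
  have hL' : ∀ x, (L x).1 = C.p x := congrFun hL
  obtain ⟨u, hu⟩ : ∃ u : C.T → ℤˣ, ∀ x s, (Z.localTriv s (L x)).2 = τ (C.p x) s (C.p x) * u x :=
    ⟨fun x => (L x).2, fun x s => by rw [← hL']; rfl⟩
  have lc : ∀ x s, C.p x ∈ B s →
      ∀ᶠ x' in 𝓝 x, τ (C.p x') s (C.p x') * u x' = τ (C.p x) s (C.p x) * u x := fun x s hx => by
    have h : ContinuousAt (fun x => (Z.localTriv s (L x)).2) x :=
      continuousAt_snd.comp (((Z.localTriv s).toOpenPartialHomeomorph.continuousAt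
        (show (L x).1 ∈ B s by rwa [hL'])).comp L.continuous.continuousAt)
    simp only [hu] at h
    exact h.eventually ((isOpen_discrete {_}).mem_nhds rfl)
  have sq : ∀ (g : C.Γ) x s, τ (C.p (g • x)) s (C.p (g • x)) * u (g • x) *
      (τ (C.p x) s (C.p x) * u x) = u (g • x) * u x := fun g x s => by
    rw [C.p_smul, mul_mul_mul_comm, Int.units_mul_self, one_mul]
  have cst : ∀ (g : C.Γ) x, u (g • x) * u x = u (g • x₀) * u x₀ := fun g x => by
    refine IsLocallyConstant.apply_eq_of_preconnectedSpace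
      (f := fun x => u (g • x) * u x) ((IsLocallyConstant.iff_eventually_eq _).2 fun x => ?_) x x₀
    filter_upwards [lc x _ (hB' _), (continuous_const_smul g).continuousAt.eventually
      (lc (g • x) (C.p x) (by rw [C.p_smul]; exact hB' _))] with y h h'
    rw [← sq g y (C.p x), ← sq g x (C.p x), h, h']
  refine ⟨⟨⟨fun g => u (g • x₀) * u x₀, ?_⟩, fun g h => ?_⟩,
    fun x s => τ (C.p x) s (C.p x) * u x, fun g x s _ => ?_, lc, fun x s s' h h' => ?_⟩
  · rw [one_smul, Int.units_mul_self]
  · change u ((g * h) • x₀) * u x₀ = u (g • x₀) * u x₀ * (u (h • x₀) * u x₀)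
    rw [← cst g (h • x₀), mul_smul, mul_assoc, ← mul_assoc (u (h • x₀)), Int.units_mul_self,
      one_mul]
  · change τ (C.p (g • x)) s (C.p (g • x)) * u (g • x) =
      u (g • x₀) * u x₀ * (τ (C.p x) s (C.p x) * u x)
    rw [← cst g x, C.p_smul, mul_left_comm, mul_assoc, Int.units_mul_self, mul_one]
  · rw [← mul_assoc, h3 _ _ _ _ ⟨⟨hB' _, h⟩, h'⟩]

/-- the sign -/
def sn (a : ℝ) : ℤˣ := if 0 < a then 1 else -1

theorem sn_mul {a b : ℝ} (ha : a ≠ 0) (hb : b ≠ 0) : sn (a * b) = sn a * sn b := by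
  rcases ha.lt_or_gt with ha | ha <;> rcases hb.lt_or_gt with hb | hb
  · simp [sn, ha.not_gt, hb.not_gt, mul_pos_of_neg_of_neg ha hb]
  · simp [sn, ha.not_gt, hb]
  · simp [sn, ha, hb.not_gt]
  · simp [sn, ha, hb]

theorem abs_eq_sn (a : ℝ) : |a| = ((sn a : ℤ) : ℝ) * a := by
  by_cases h : 0 < a
  · simp [sn, h, abs_of_pos h]
  · simp [sn, h, abs_of_nonpos (not_lt.1 h)]

theorem continuousAt_sn {a : ℝ} (ha : a ≠ 0) : ContinuousAt sn a := by
  rcases ha.lt_or_gt with ha | ha
  · refine (continuousAt_const (y := -1)).congr ((gt_mem_nhds ha).mono fun b hb => ?_)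
    exact (if_neg (not_lt.2 (le_of_lt hb))).symm
  · exact (continuousAt_const (y := 1)).congr ((lt_mem_nhds ha).mono fun b hb => (if_pos hb).symm)

variable (n : ℕ) {S : Type} [TopologicalSpace S] [ChartedSpace (Eu n) S] [IsManifold (𝓡 n) 1 S]

/-- Jacobian of the change of chart -/
def dt (s s' t : S) : ℝ := (tangentCoordChange (𝓡 n) s s' t).det

theorem dt_eq (s s' t : S) :
    dt n s s' t = (fderiv ℝ (ch n s' ∘ (ch n s).symm) (ch n s t)).det := by
  simp only [dt, tangentCoordChange_def, mfld_simps, fderivWithin_univ]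

variable {n}

theorem dt_self {s t : S} (h : t ∈ (ch n s).source) : dt n s s t = 1 := by
  have : tangentCoordChange (𝓡 n) s s t = 1 :=
    ContinuousLinearMap.ext fun v => tangentCoordChange_self (by rwa [extChartAt_source])
  rw [dt, this]
  exact LinearMap.det_id

theorem dt_mul {s s' s'' t : S} (h : t ∈ (ch n s).source ∩ (ch n s').source ∩ (ch n s'').source) :
    dt n s' s'' t * dt n s s' t = dt n s s'' t := by
  have : tangentCoordChange (𝓡 n) s s'' t =
      tangentCoordChange (𝓡 n) s' s'' t ∘L tangentCoordChange (𝓡 n) s s' t :=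
    ContinuousLinearMap.ext fun v =>
      (tangentCoordChange_comp (by simpa only [extChartAt_source] using h)).symm
  rw [dt, dt, dt, this]
  exact (LinearMap.det_comp _ _).symm

theorem dt_ne {s s' t : S} (h : t ∈ (ch n s).source ∩ (ch n s').source) : dt n s s' t ≠ 0 :=
  right_ne_zero_of_mul (a := dt n s' s t) (by
    rw [dt_mul ⟨h, h.1⟩, dt_self h.1]
    exact one_ne_zero)

theorem continuousOn_dt (s s' : S) :
    ContinuousOn (dt n s s') ((ch n s).source ∩ (ch n s').source) :=
  ContinuousLinearMap.continuous_det.comp_continuousOn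
    (by simpa only [extChartAt_source] using continuousOn_tangentCoordChange (I := 𝓡 n) s s')

end Ori1

open Ori1 in
theorem ori : OriStmt := by
  intro n S _ _ _ C
  have := ChartedSpace.locallyPathConnectedSpace (Eu n) S
  obtain ⟨χ, e, h1, h2, h3⟩ := exists_eps C (B := fun s => (ch n s).source)
    (fun s => (ch n s).open_source) (fun s => mem_chart_source _ s)
    (τ := fun s s' t => sn (dt n s s' t)) (fun s t ht => by rw [dt_self ht]; exact if_pos one_pos)
    (fun s s' t ht => (continuousAt_sn (dt_ne ht)).comp_continuousWithinAt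
      (continuousOn_dt s s' t ht))
    fun s s' s'' t ht => by rw [← sn_mul (dt_ne ⟨ht.1.2, ht.2⟩) (dt_ne ht.1), dt_mul ht]
  refine ⟨⟨χ, fun x s => ((e x s : ℤ) : ℝ), fun x s => ?_, fun g x s hx => ?_,
    fun x s hx => (h2 x s hx).mono fun y hy => by rw [hy], fun x s s' hx hx' => ?_⟩⟩
  · rw [← Int.cast_mul, ← Units.val_mul, Int.units_mul_self, Units.val_one, Int.cast_one]
  · rw [h1 g x s hx, Units.val_mul, Int.cast_mul, sg]
  · rw [← dt_eq, h3 x s s' hx hx', abs_eq_sn, Units.val_mul, Int.cast_mul]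
    ring

end Crest.Agent.N222.As

end
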