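import Crest.Agent.N222.As.Defs

/-!
# Row 222, `C.AsphStmt`: Stokes for Jacobian determinants and the degree one computation
-/

set_option autoImplicit false
open Set Filter Topology MeasureTheory
open scoped ContDiff Manifold

noncomputable section

namespace Crest.Agent.N222.As

namespace St

variable {n : ℕ}

/-- partial derivative -/
def pd (k : Fin n) (f : Eu n → ℝ) (u : Eu n) : ℝ := fderiv ℝ f u (EuclideanSpace.single k 1)

/-- the complementary product -/
def Q (g : Fin n → Eu n → ℝ) (j : Fin n) (σ : Equiv.Perm (Fin n)) (u : Eu n) : ℝ :=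
  ∏ i ∈ Finset.univ.erase j, pd (σ i) (g i) u

theorem jd_eq (g : Fin n → Eu n → ℝ) (j : Fin n) (u : Eu n) : jd g u
    = ∑ σ : Equiv.Perm (Fin n), ((Equiv.Perm.sign σ : ℤ) : ℝ) * (Q g j σ u * pd (σ j) (g j) u) := by
  rw [jd, ← Matrix.det_transpose, Matrix.det_apply']
  refine Finset.sum_congr rfl fun σ _ => ?_
  rw [Q, Finset.prod_erase_mul _ (fun i => pd (σ i) (g i) u) (Finset.mem_univ j)]
  rfl

theorem jd_zero {g : Fin n → Eu n → ℝ} {j : Fin n} {u : Eu n} (h : fderiv ℝ (g j) u = 0) :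
    jd g u = 0 := by
  simp [jd_eq g j, pd, h]

theorem jd_lin {G g g' : Fin n → Eu n → ℝ} {j : Fin n} {u : Eu n} {a b : ℝ}
    (h : ∀ i, i ≠ j → fderiv ℝ (G i) u = fderiv ℝ (g i) u)
    (h' : ∀ i, i ≠ j → fderiv ℝ (G i) u = fderiv ℝ (g' i) u)
    (hj : fderiv ℝ (G j) u = a • fderiv ℝ (g j) u + b • fderiv ℝ (g' j) u) :
    jd G u = a * jd g u + b * jd g' u := by
  rw [jd_eq G j, jd_eq g j, jd_eq g' j, Finset.mul_sum, Finset.mul_sum, ← Finset.sum_add_distrib]
  refine Finset.sum_congr rfl fun σ _ => ?_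
  have e : Q g j σ u = Q G j σ u :=
    Finset.prod_congr rfl fun i hi => by rw [pd, pd, h i (Finset.ne_of_mem_erase hi)]
  have e' : Q g' j σ u = Q G j σ u :=
    Finset.prod_congr rfl fun i hi => by rw [pd, pd, h' i (Finset.ne_of_mem_erase hi)]
  simp only [e, e', pd, hj, _root_.add_apply, _root_.smul_apply, smul_eq_mul]
  ring

theorem contDiff_pd (k : Fin n) {f : Eu n → ℝ} (hf : ContDiff ℝ ∞ f) : ContDiff ℝ ∞ (pd k f) :=
  (hf.fderiv_right (m := ∞) (by simp)).clm_apply contDiff_const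

theorem pd_pd {f : Eu n → ℝ} (hf : ContDiff ℝ ∞ f) (k l : Fin n) (u : Eu n) :
    pd k (pd l f) u = pd l (pd k f) u := by
  have h1 : DifferentiableAt ℝ (fderiv ℝ f) u :=
    ((hf.fderiv_right (m := ∞) (by simp)).differentiable (by simp)) u
  have h2 : ∀ k l, pd k (pd l f) u
      = fderiv ℝ (fderiv ℝ f) u (EuclideanSpace.single k 1) (EuclideanSpace.single l 1) :=
    fun k l => by
      unfold pd
      rw [fderiv_clm_apply h1 (differentiableAt_const _)]
      simp
  rw [h2, h2]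
  exact (hf.contDiffAt.isSymmSndFDerivAt (by
    rw [minSmoothness_of_isRCLikeNormedField]
    exact WithTop.coe_le_coe.2 (le_top (a := (2 : ℕ∞))))).eq _ _

theorem contDiff_Q {g : Fin n → Eu n → ℝ} (hg : ∀ i, ContDiff ℝ ∞ (g i)) (j : Fin n)
    (σ : Equiv.Perm (Fin n)) : ContDiff ℝ ∞ (Q g j σ) :=
  contDiff_prod fun i _ => contDiff_pd _ (hg i)

/-- Piola's identity -/
theorem piola {g : Fin n → Eu n → ℝ} (hg : ∀ i, ContDiff ℝ ∞ (g i)) (j : Fin n) (u : Eu n) :
    ∑ σ : Equiv.Perm (Fin n), ((Equiv.Perm.sign σ : ℤ) : ℝ) * pd (σ j) (Q g j σ) u = 0 := by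
  have h1 : ∀ σ : Equiv.Perm (Fin n), pd (σ j) (Q g j σ) u = ∑ i ∈ Finset.univ.erase j,
      (∏ k ∈ (Finset.univ.erase j).erase i, pd (σ k) (g k) u) * pd (σ j) (pd (σ i) (g i)) u :=
    fun σ => by
      unfold Q
      rw [pd, fderiv_finsetProd fun i _ => (contDiff_pd _ (hg i)).differentiable (by simp) u]
      simp only [_root_.sum_apply, _root_.smul_apply, smul_eq_mul]
      rfl
  simp only [h1, Finset.mul_sum]
  rw [Finset.sum_comm]
  refine Finset.sum_eq_zero fun i hi => ?_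
  have hij : i ≠ j := Finset.ne_of_mem_erase hi
  have h2 := Equiv.sum_comp (Equiv.mulRight (Equiv.swap i j)) fun σ : Equiv.Perm (Fin n) =>
    ((Equiv.Perm.sign σ : ℤ) : ℝ) * ((∏ k ∈ (Finset.univ.erase j).erase i, pd (σ k) (g k) u)
      * pd (σ j) (pd (σ i) (g i)) u)
  have h3 : ∀ σ : Equiv.Perm (Fin n), ∏ k ∈ (Finset.univ.erase j).erase i,
      pd (σ (Equiv.swap i j k)) (g k) u = ∏ k ∈ (Finset.univ.erase j).erase i, pd (σ k) (g k) u :=
    fun σ => Finset.prod_congr rfl fun k hk => by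
      rw [Equiv.swap_apply_of_ne_of_ne (Finset.ne_of_mem_erase hk)
        (Finset.ne_of_mem_erase (Finset.mem_of_mem_erase hk))]
  simp only [Equiv.coe_mulRight, Equiv.Perm.coe_mul, Function.comp_apply, Equiv.swap_apply_left,
    Equiv.swap_apply_right, h3, map_mul, Equiv.Perm.sign_swap hij, mul_neg, mul_one, Units.val_neg,
    Int.cast_neg, neg_mul, Finset.sum_neg_distrib, fun σ : Equiv.Perm (Fin n) =>
      pd_pd (hg i) (σ i) (σ j) u] at h2
  linarith

/-- global Stokes -/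
theorem glob {g : Fin n → Eu n → ℝ} (hg : ∀ i, ContDiff ℝ ∞ (g i)) {j : Fin n}
    (hc : HasCompactSupport (g j)) : ∫ u, jd g u = 0 := by
  have c1 : ∀ k, HasCompactSupport (pd k (g j)) := fun k =>
    hc.fderiv_apply (𝕜 := ℝ) (EuclideanSpace.single k 1)
  have i1 : ∀ σ : Equiv.Perm (Fin n), Integrable fun u => Q g j σ u * pd (σ j) (g j) u := fun σ =>
    ((contDiff_Q hg j σ).continuous.mul
      (contDiff_pd _ (hg j)).continuous).integrable_of_hasCompactSupport (c1 _).mul_left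
  have i2 : ∀ σ : Equiv.Perm (Fin n), Integrable fun u => pd (σ j) (Q g j σ) u * g j u := fun σ =>
    ((contDiff_pd _ (contDiff_Q hg j σ)).continuous.mul
      (hg j).continuous).integrable_of_hasCompactSupport hc.mul_left
  have i3 : ∀ σ : Equiv.Perm (Fin n), Integrable fun u => Q g j σ u * g j u := fun σ =>
    ((contDiff_Q hg j σ).continuous.mul (hg j).continuous).integrable_of_hasCompactSupport
      hc.mul_left
  have e : ∀ σ : Equiv.Perm (Fin n), ∫ u, Q g j σ u * pd (σ j) (g j) u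
      = -∫ u, pd (σ j) (Q g j σ) u * g j u := fun σ =>
    integral_mul_fderiv_eq_neg_fderiv_mul_of_integrable (i2 σ) (i1 σ) (i3 σ)
      (fun u _ => (contDiff_Q hg j σ).differentiable (by simp) u)
      fun u _ => (hg j).differentiable (by simp) u
  simp only [jd_eq g j]
  rw [integral_finsetSum _ fun σ _ => (i1 σ).const_mul _]
  simp only [integral_const_mul, e, mul_neg, Finset.sum_neg_distrib, neg_eq_zero]
  simp only [← integral_const_mul]
  rw [← integral_finsetSum _ fun σ _ => (i2 σ).const_mul _]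
  simp only [← mul_assoc, ← Finset.sum_mul, piola hg j, zero_mul, integral_zero]

theorem exists_cut {K V : Set (Eu n)} (hK : IsCompact K) (hV : IsOpen V) (h : K ⊆ V) :
    ∃ (η : Eu n → ℝ) (L : Set (Eu n)), ContDiff ℝ ∞ η ∧ IsCompact L ∧ K ⊆ L ∧ L ⊆ V ∧
      (∀ u ∈ K, η =ᶠ[𝓝 u] 1) ∧ ∀ u, u ∉ L → η =ᶠ[𝓝 u] 0 := by
  obtain ⟨L, hL, h1, h2⟩ := exists_compact_between hK hV h
  obtain ⟨f, f1, f0, -⟩ := exists_contMDiffMap_one_nhds_of_subset_interior (n := ⊤)
    (modelWithCornersSelf ℝ (Eu n)) hK.isClosed h1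
  refine ⟨f, L, f.contMDiff.contDiff, hL, h1.trans interior_subset, h2,
    fun u hu => f1.filter_mono (nhds_le_nhdsSet hu), fun u hu => ?_⟩
  exact eventually_of_mem (hL.isClosed.isOpen_compl.mem_nhds hu) f0

theorem contDiff_cut {L V : Set (Eu n)} (hV : IsOpen V) (h : L ⊆ V) {η f : Eu n → ℝ}
    (hη : ContDiff ℝ ∞ η) (h0 : ∀ u, u ∉ L → η =ᶠ[𝓝 u] 0) (hf : ContDiffOn ℝ ∞ f V) :
    ContDiff ℝ ∞ fun u => η u * f u := by
  refine contDiff_iff_contDiffAt.2 fun u => ?_
  by_cases hu : u ∈ L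
  · exact hη.contDiffAt.mul (hf.contDiffAt (hV.mem_nhds (h hu)))
  · exact (contDiffAt_const (c := (0 : ℝ))).congr_of_eventuallyEq
      ((h0 u hu).mono fun v hv => by simp [hv])

end St

open St in
theorem st : StStmt := by
  intro n Ω K g κ j hΩ hK hKΩ hg hκ h0
  have hV : IsOpen (Ω ∩ {u | ∀ᶠ v in 𝓝 u, κ v = κ u}) := by
    refine hΩ.inter (isOpen_iff_mem_nhds.2 fun u hu => ?_)
    filter_upwards [hu, hu.eventually_nhds] with v h1 h2
    exact h2.mono fun w hw => hw.trans h1.symm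
  obtain ⟨η, L, hη, hL, hKL, hLV, η1, η0⟩ := exists_cut hK hV fun u hu => ⟨hKΩ hu, hκ u hu⟩
  obtain ⟨ζ, L', hζ, -, -, hL', ζ1, ζ0⟩ := exists_cut hL hΩ fun u hu => (hLV hu).1
  have hκ' : ContDiffOn ℝ ∞ κ (Ω ∩ {u | ∀ᶠ v in 𝓝 u, κ v = κ u}) := fun u hu =>
    ((contDiffAt_const (c := κ u)).congr_of_eventuallyEq hu.2).contDiffWithinAt
  let G : Fin n → Eu n → ℝ := Function.update (fun i u => ζ u * g i u) j fun u => η u * (κ u * g j u)
  have Gj : G j = fun u => η u * (κ u * g j u) := Function.update_self ..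
  have Gi : ∀ i, i ≠ j → G i = fun u => ζ u * g i u := fun i hi => Function.update_of_ne hi ..
  have hG : ∀ i, ContDiff ℝ ∞ (G i) := fun i => by
    by_cases hi : i = j
    · rw [hi, Gj]
      exact contDiff_cut hV hLV hη η0 (hκ'.mul ((hg j).mono inter_subset_left))
    · rw [Gi i hi]
      exact contDiff_cut hΩ hL' hζ ζ0 (hg i)
  have z1 : ∀ u, u ∉ L → jd G u = 0 := fun u hu => jd_zero (j := j) (by
    rw [Gj, EventuallyEq.fderiv_eq (f := fun _ => (0 : ℝ))
      ((η0 u hu).mono fun v hv => by simp [hv])]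
    simp)
  have z2 : ∀ u ∈ L, ∀ i, i ≠ j → fderiv ℝ (G i) u = fderiv ℝ (g i) u := fun u hu i hi => by
    rw [Gi i hi]
    exact EventuallyEq.fderiv_eq ((ζ1 u hu).mono fun v hv => by simp [hv])
  have hc : HasCompactSupport (G j) := HasCompactSupport.intro hL fun u hu => by
    rw [Gj]; simp [(η0 u hu).self_of_nhds]
  rw [← glob hG hc, ← setIntegral_eq_integral_of_forall_compl_eq_zero (s := Ω)
    fun u hu => z1 u fun h => hu (hLV h).1]
  refine setIntegral_congr_fun hΩ.measurableSet fun u hu => ?_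
  by_cases huK : u ∈ K
  · rw [jd_lin (a := κ u) (b := 0) (z2 u (hKL huK)) (z2 u (hKL huK)), zero_mul, add_zero]
    rw [zero_smul, add_zero, Gj, ← fderiv_const_smul
      (((hg j).contDiffAt (hΩ.mem_nhds hu)).differentiableAt (by simp))]
    refine EventuallyEq.fderiv_eq ?_
    filter_upwards [η1 u huK, hκ u huK] with v h1 h2
    simp [h1, h2]
  · rcases h0 u hu huK with h | ⟨i, hi, h⟩
    · rw [jd_zero (j := j) (by rw [h.fderiv_eq]; simp), mul_zero, jd_zero (j := j)]
      rw [Gj, EventuallyEq.fderiv_eq (f := fun _ => (0 : ℝ)) (h.mono fun v hv => by simp [hv])]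
      simp
    · rw [jd_zero h, mul_zero]
      by_cases huL : u ∈ L
      · exact (jd_zero ((z2 u huL i hi).trans h)).symm
      · exact (z1 u huL).symm

namespace St

variable {n : ℕ} {u₀ : Eu n} {δ R : ℝ} {g g' : Fin n → Eu n → ℝ}

/-- admissible families -/
def Adm (u₀ : Eu n) (δ R : ℝ) (i : Fin n) (f : Eu n → ℝ) : Prop :=
  ContDiffOn ℝ ∞ f (Metric.ball u₀ R) ∧
    ∀ u ∈ Metric.ball u₀ R, (δ < u i - u₀ i → f u = 1) ∧ (u i - u₀ i < -δ → f u = 0)

/-- the cube -/
def cube (u₀ : Eu n) (δ : ℝ) : Set (Eu n) := {u | ∀ i, |u i - u₀ i| ≤ δ}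

theorem cube_subset (hδ : 0 < δ) (hR : (n + 1) * δ ≤ R) : cube u₀ δ ⊆ Metric.ball u₀ R := by
  intro u hu
  rw [mem_ball_iff_norm]
  have h1 : ‖u - u₀‖ ^ 2 ≤ n * δ ^ 2 := by
    rw [EuclideanSpace.real_norm_sq_eq]
    refine (Finset.sum_le_card_nsmul _ _ (δ ^ 2) fun i _ => sq_le_sq' ?_ ?_).trans (by simp)
    exacts [(abs_le.1 (hu i)).1, (abs_le.1 (hu i)).2]
  refine lt_of_lt_of_le (lt_of_pow_lt_pow_left₀ 2 (by positivity) (h1.trans_lt ?_)) hR
  have : (0 : ℝ) ≤ n := n.cast_nonneg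
  nlinarith [mul_pos hδ hδ, mul_nonneg (mul_nonneg this this) (mul_pos hδ hδ).le,
    mul_nonneg this (mul_pos hδ hδ).le]

theorem isCompact_cube (hδ : 0 < δ) : IsCompact (cube u₀ δ) := by
  refine Metric.isCompact_of_isClosed_isBounded ?_
    (Metric.isBounded_ball.subset (cube_subset hδ le_rfl))
  simp only [cube, ofPred_forall]
  exact isClosed_iInter fun i => isClosed_le (by fun_prop) continuous_const

theorem Adm.ev {i : Fin n} {u : Eu n} (hu : u ∈ Metric.ball u₀ R) (hi : δ < |u i - u₀ i|) :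
    ∃ c : ℝ, ∀ f, Adm u₀ δ R i f → f =ᶠ[𝓝 u] fun _ => c := by
  have hb := Metric.isOpen_ball.mem_nhds hu
  have hc : Continuous fun u : Eu n => u i - u₀ i := by fun_prop
  rcases lt_abs.1 hi with h | h
  · refine ⟨1, fun f hf => ?_⟩
    filter_upwards [hb, (isOpen_lt continuous_const hc).mem_nhds h] with v h1 h2
    exact (hf.2 v h1).1 h2
  · refine ⟨0, fun f hf => ?_⟩
    filter_upwards [hb, (isOpen_lt hc continuous_const).mem_nhds (lt_neg.1 h)] with v h1 h2
    exact (hf.2 v h1).2 h2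

theorem continuousOn_jd {Ω : Set (Eu n)} (hΩ : IsOpen Ω) (hg : ∀ i, ContDiffOn ℝ ∞ (g i) Ω) :
    ContinuousOn (jd g) Ω := by
  unfold jd
  simp only [Matrix.det_apply', Matrix.of_apply]
  exact continuousOn_finsetSum _ fun σ _ => continuousOn_const.mul
    (continuousOn_finsetProd _ fun i _ =>
      ((hg _).continuousOn_fderiv_of_isOpen hΩ (by simp)).clm_apply continuousOn_const)

theorem integrableOn_jd (hδ : 0 < δ) (hR : (n + 1) * δ ≤ R) (hg : ∀ i, Adm u₀ δ R i (g i)) :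
    IntegrableOn (jd g) (Metric.ball u₀ R) := by
  refine IntegrableOn.of_forall_sdiff_eq_zero
    (((continuousOn_jd Metric.isOpen_ball fun i => (hg i).1).mono
      (cube_subset hδ hR)).integrableOn_compact (isCompact_cube hδ)) measurableSet_ball
    fun u hu => ?_
  obtain ⟨i, hi⟩ := not_forall.1 hu.2
  obtain ⟨c, hc⟩ := Adm.ev hu.1 (not_le.1 hi)
  exact jd_zero (j := i) (by rw [(hc _ (hg i)).fderiv_eq]; simp)

theorem step (hS : StStmt) (hδ : 0 < δ) (hR : (n + 1) * δ ≤ R) (hg : ∀ i, Adm u₀ δ R i (g i))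
    (hg' : ∀ i, Adm u₀ δ R i (g' i)) {j : Fin n} (e : ∀ i, i ≠ j → g' i = g i) :
    ∫ u in Metric.ball u₀ R, jd g' u = ∫ u in Metric.ball u₀ R, jd g u := by
  let G : Fin n → Eu n → ℝ := Function.update g j (g j - g' j)
  have Gj : G j = g j - g' j := Function.update_self ..
  have Gi : ∀ i, i ≠ j → G i = g i := fun i hi => Function.update_of_ne hi ..
  have h1 := hS n _ _ G (fun _ => 1) j Metric.isOpen_ball (isCompact_cube hδ) (cube_subset hδ hR)
    (fun i => by
      by_cases hi : i = j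
      · rw [hi, Gj]; exact (hg j).1.sub (hg' j).1
      · rw [Gi i hi]; exact (hg i).1)
    (fun _ _ => Eventually.of_forall fun _ => rfl) fun u hu huK => by
      obtain ⟨i, hi⟩ := not_forall.1 huK
      obtain ⟨c, hc⟩ := Adm.ev hu (not_le.1 hi)
      by_cases hij : i = j
      · subst hij
        refine Or.inl ?_
        filter_upwards [hc _ (hg i), hc _ (hg' i)] with v h1 h2
        simp [Gj, h1, h2]
      · exact Or.inr ⟨i, hij, by rw [Gi i hij, (hc _ (hg i)).fderiv_eq]; simp⟩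
  rw [setIntegral_congr_fun (g := fun u => jd g u - jd g' u) measurableSet_ball fun u hu => by
    have hb := Metric.isOpen_ball.mem_nhds hu
    beta_reduce
    rw [jd_lin (g := g) (g' := g') (a := 1) (b := -1) (fun i hi => by rw [Gi i hi])
      (fun i hi => by rw [Gi i hi, e i hi]) (by
        rw [Gj, fderiv_sub (((hg j).1.contDiffAt hb).differentiableAt (by simp))
          (((hg' j).1.contDiffAt hb).differentiableAt (by simp)), one_smul, neg_one_smul,
          sub_eq_add_neg])]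
    ring, integral_sub (integrableOn_jd hδ hR hg) (integrableOn_jd hδ hR hg')] at h1
  linarith

/-- the model family -/
def Bm (u₀ : Eu n) (δ : ℝ) (i : Fin n) (u : Eu n) : ℝ :=
  Real.smoothTransition ((u i - u₀ i + δ) / (2 * δ))

theorem adm_Bm (hδ : 0 < δ) (i : Fin n) : Adm u₀ δ R i (Bm u₀ δ i) := by
  refine ⟨(Real.smoothTransition.contDiff.comp (by fun_prop)).contDiffOn, fun u _ => ⟨fun h => ?_,
    fun h => ?_⟩⟩
  · exact Real.smoothTransition.one_of_one_le ((one_le_div (by positivity)).2 (by linarith))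
  · exact Real.smoothTransition.zero_of_nonpos
      (div_nonpos_of_nonpos_of_nonneg (by linarith) (by positivity))

theorem jd_Bm (u : Eu n) : jd (Bm u₀ δ) u
    = ∏ i, deriv Real.smoothTransition ((u i - u₀ i + δ) / (2 * δ)) / (2 * δ) := by
  rw [← Matrix.det_diagonal, jd]
  congr 1
  ext i k
  have h1 : HasFDerivAt (fun u : Eu n => (u i - u₀ i + δ) / (2 * δ))
      ((2 * δ)⁻¹ • EuclideanSpace.proj (𝕜 := ℝ) i) u := by
    simp only [div_eq_inv_mul]
    exact ((((EuclideanSpace.proj (𝕜 := ℝ) i).hasFDerivAt).sub_const _).add_const _).const_mul _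
  have h2 := ((Real.smoothTransition.contDiff (n := 1)).differentiable (by simp)
    _).hasDerivAt.comp_hasFDerivAt u h1
  rw [Matrix.of_apply, show Bm u₀ δ i = Real.smoothTransition ∘ fun u : Eu n =>
    (u i - u₀ i + δ) / (2 * δ) from rfl, h2.fderiv]
  by_cases hik : i = k
  · simp [hik, div_eq_mul_inv]
  · simp [hik]

theorem pos_Bm (hδ : 0 < δ) (hR : (n + 1) * δ ≤ R) :
    0 < ∫ u in Metric.ball u₀ R, jd (Bm u₀ δ) u := by
  have h0 : ∀ u, 0 ≤ jd (Bm u₀ δ) u := fun u => by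
    rw [jd_Bm]
    exact Finset.prod_nonneg fun i _ =>
      div_nonneg Real.smoothTransition.monotone.deriv_nonneg (by positivity)
  rw [setIntegral_pos_iff_support_of_nonneg_ae (Eventually.of_forall h0)
    (integrableOn_jd hδ hR (adm_Bm hδ)), inter_comm]
  obtain ⟨t, ht, ht'⟩ := exists_deriv_eq_slope Real.smoothTransition zero_lt_one
    Real.smoothTransition.continuous.continuousOn
    ((Real.smoothTransition.contDiff (n := 1)).differentiable (by simp)).differentiableOn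
  refine ((continuousOn_jd Metric.isOpen_ball fun i =>
    (adm_Bm (R := R) hδ i).1).isOpen_inter_preimage Metric.isOpen_ball
    isOpen_compl_singleton).measure_pos _ ⟨WithLp.toLp 2 fun i => u₀ i - δ + 2 * δ * t,
      cube_subset hδ hR fun i => abs_le.2 ⟨?_, ?_⟩, ?_⟩
  · nlinarith [ht.1]
  · nlinarith [ht.2]
  · change jd _ _ ≠ 0
    rw [jd_Bm]
    refine Finset.prod_ne_zero_iff.2 fun i _ => ?_
    have : (u₀ i - δ + 2 * δ * t - u₀ i + δ) / (2 * δ) = t := by field_simp; ring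
    simp only [this, ht']
    simp [hδ.ne']

end St

open St in
theorem deg (hS : StStmt) : DegStmt := by
  classical
  intro n u₀ δ R g hδ hR hg h01
  have ha : ∀ s : Finset (Fin n), ∀ i, Adm u₀ δ R i (s.piecewise (Bm u₀ δ) g i) := fun s i => by
    by_cases hi : i ∈ s
    · rw [Finset.piecewise_eq_of_mem _ _ _ hi]; exact adm_Bm hδ i
    · rw [Finset.piecewise_eq_of_notMem _ _ _ hi]; exact ⟨hg i, h01 i⟩
  have key : ∀ s : Finset (Fin n), ∫ u in Metric.ball u₀ R, jd (s.piecewise (Bm u₀ δ) g) u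
      = ∫ u in Metric.ball u₀ R, jd g u := fun s => by
    induction s using Finset.induction_on with
    | empty => rw [Finset.piecewise_empty]
    | insert j s hj ih =>
      rw [← ih]
      exact step hS hδ hR (ha s) (ha _) fun i hi => Finset.piecewise_insert_of_ne _ _ _ hi
  rw [← key Finset.univ, Finset.piecewise_univ]
  exact (pos_Bm hδ hR).ne'

end Crest.Agent.N222.As

end
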