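import Crest.Agent.N222.As.CV

/-!
# Row 222, `AsphStmt`: the Whitney pairing kills local coboundaries (helper48)
-/

set_option autoImplicit false
set_option linter.unusedSectionVars false
open Set Filter Topology MeasureTheory Function
open scoped ContDiff Manifold

noncomputable section

namespace Crest.Agent.N222.As

open Crest.Agent.N222.C

theorem sum_eq_zero_of_update {α ι : Type} [Fintype α] [DecidableEq α] [Fintype ι]
    (F : (α → ι) → ℝ) (i : α) (h : ∀ a, ∑ b, F (update a i b) = 0) : ∑ a, F a = 0 := by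
  classical
  have hi : Involutive fun p : (α → ι) × ι => (update p.1 i p.2, p.1 i) := fun p => by simp
  have h1 := Equiv.sum_comp hi.toPerm fun p : (α → ι) × ι => F p.1
  simp only [Involutive.coe_toPerm, Fintype.sum_prod_type, h, Finset.sum_const_zero,
    Finset.sum_const, nsmul_eq_mul, ← Finset.mul_sum, Finset.card_univ] at h1
  rcases mul_eq_zero.1 h1.symm with h2 | h2
  · have : IsEmpty ι := Fintype.card_eq_zero_iff.1 (Nat.cast_eq_zero.1 h2)
    have : IsEmpty (α → ι) := ⟨fun a => IsEmpty.false (a i)⟩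
    exact Fintype.sum_empty _
  · exact h2

/-- `jd` is additive in each function -/
theorem sum_jd_update {n : ℕ} {ι : Type} [Fintype ι] (g : Fin n → Eu n → ℝ) (i : Fin n)
    (r : ι → Eu n → ℝ) {u : Eu n} (h : ∑ b, fderiv ℝ (r b) u = 0) :
    ∑ b, jd (update g i (r b)) u = 0 := by
  set A : Matrix (Fin n) (Fin n) ℝ :=
    Matrix.of fun i j => fderiv ℝ (g i) u (EuclideanSpace.single j 1) with hA
  have h1 : ∀ b, jd (update g i (r b)) u = Matrix.detRowAlternating.toMultilinearMap
      (update A i fun j => fderiv ℝ (r b) u (EuclideanSpace.single j 1)) := fun b => by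
    refine congrArg Matrix.det ?_
    ext k j
    by_cases hk : k = i
    · subst hk; simp
    · simp [hk, hA]
  simp only [h1]
  rw [← MultilinearMap.map_update_sum]
  refine MultilinearMap.map_coord_zero _ i ?_
  funext j
  have := congrArg (fun T : Eu n →L[ℝ] ℝ => T (EuclideanSpace.single j 1)) h
  simpa using this

section

variable {n : ℕ} {S : Type} [TopologicalSpace S] [ChartedSpace (Eu n) S] {C : Cov S}
  (O : Ori n C) (N : Net n C)

theorem comp_symm_zero {ρ : S → ℝ} {s : S} {u : Eu n} (hu : u ∈ (ch n s).target)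
    (h : (ch n s).symm u ∉ tsupport ρ) : ρ ∘ (ch n s).symm =ᶠ[𝓝 u] 0 :=
  ((ch n s).continuousAt_symm hu).eventually (notMem_tsupport_iff_eventuallyEq.1 h)

theorem fderiv_comp_symm_zero {ρ : S → ℝ} {s : S} {u : Eu n} (hu : u ∈ (ch n s).target)
    (h : (ch n s).symm u ∉ tsupport ρ) : fderiv ℝ (ρ ∘ (ch n s).symm) u = 0 := by
  rw [(comp_symm_zero hu h).fderiv_eq]
  exact fderiv_const_apply 0

/-- the density vanishes off the supports -/
theorem loc_eq_zero (a : Fin (n + 1) → N.ι) (k : S → ℝ) {s : S} {u : Eu n}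
    (hu : u ∈ (ch n s).target) {i : Fin (n + 1)} (h : (ch n s).symm u ∉ tsupport (N.ρ (a i))) :
    O.loc s (fun t => k t * N.ρ (a 0) t) (fun i => N.ρ (a i.succ)) u = 0 := by
  rw [Ori.loc]
  induction i using Fin.cases with
  | zero => rw [image_eq_zero_of_notMem_tsupport h, mul_zero, mul_zero, zero_mul]
  | succ i => rw [jd_eq_zero (i := i) (fderiv_comp_symm_zero hu h), mul_zero]

theorem loc_eq_zero' (a : Fin (n + 1) → N.ι) (k : S → ℝ) {s t : S}
    (ht : t ∈ (ch n s).source) {i : Fin (n + 1)} (h : t ∉ tsupport (N.ρ (a i))) :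
    O.loc s (fun t => k t * N.ρ (a 0) t) (fun i => N.ρ (a i.succ)) (ch n s t) = 0 :=
  loc_eq_zero O N a k ((ch n s).map_source ht) (by rwa [(ch n s).left_inv ht])

theorem sum_fderiv_rho {s : S} {u : Eu n} (hu : u ∈ (ch n s).target) :
    ∑ b, fderiv ℝ (N.ρ b ∘ (ch n s).symm) u = 0 := by
  rw [← fderiv_fun_sum fun b _ => ((N.sm b s).contDiffAt
    ((ch n s).open_target.mem_nhds hu)).differentiableAt (by simp)]
  simp only [comp_apply, N.sum]
  exact fderiv_const_apply 1

variable [CompactSpace S] {γ : (Fin n → C.T) → ℝ}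

theorem tw_z (hγ : Tw O.χ γ) (c : Fin n → N.ι) (g : C.Γ) (x : C.T) :
    γ (fun j => N.z (c j) (g • x)) = sg O.χ g * γ fun j => N.z (c j) x := by
  simp only [N.eqv]
  exact hγ g _

theorem lc_z (γ : (Fin n → C.T) → ℝ) (c : Fin n → N.ι) {x : C.T}
    (hx : ∀ j, C.p x ∈ tsupport (N.ρ (c j))) :
    ∀ᶠ x' in 𝓝 x, γ (fun j => N.z (c j) x') = γ fun j => N.z (c j) x := by
  filter_upwards [eventually_all.2 fun j => N.lc (c j) x (hx j)] with x' hx'
  simp only [hx']

/-- the pieces are integrable in the chart at any of the centres -/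
theorem integrable_piece (hγ : Tw O.χ γ) (a : Fin (n + 1) → N.ι) (i l : Fin (n + 1)) :
    IntegrableOn (O.loc (N.m (a l)) (fun t => γ (fun j => N.z (a (i.succAbove j)) (sec C t)) *
      N.ρ (a 0) t) fun j => N.ρ (a j.succ)) (ch n (N.m (a l))).target := by
  refine (intg n S C O (N.m (a l)) (fun x => γ fun j => N.z (a (i.succAbove j)) x)
    (⋂ j, tsupport (N.ρ (a j))) (tw_z O N hγ _)
    (isClosed_iInter fun _ => isClosed_tsupport _).isCompact
    ((iInter_subset _ l).trans (N.sub _))
    fun x hx => lc_z N γ _ fun j => mem_iInter.1 hx _).2 _ _ (N.cont _) (fun j => N.sm _)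
    fun t ht h => ?_
  obtain ⟨j, hj⟩ := not_forall.1 fun h' => h (mem_iInter.2 h')
  exact loc_eq_zero' O N a _ ht hj

/-- the pieces of the pairing with a coboundary -/
def piece (γ : (Fin n → C.T) → ℝ) (i : Fin (n + 1)) (a : Fin (n + 1) → N.ι) : ℝ :=
  O.int (N.m (a 0)) (fun t => γ (fun j => N.z (a (i.succAbove j)) (sec C t)) * N.ρ (a 0) t)
    fun j => N.ρ (a j.succ)

theorem sum_piece_succ (hγ : Tw O.χ γ) (i : Fin n) : ∑ a, piece O N γ i.succ a = 0 := by
  refine sum_eq_zero_of_update _ i.succ fun a => ?_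
  have h0 : ∀ b, update a i.succ b 0 = a 0 := fun b => update_of_ne (Fin.succ_ne_zero i).symm _ _
  have h1 : ∀ b j, update a i.succ b (i.succ.succAbove j) = a (i.succ.succAbove j) := fun b j =>
    update_of_ne (Fin.succAbove_ne _ _) _ _
  have hi := fun b => integrable_piece O N hγ (update a i.succ b) i.succ 0
  simp only [piece, Ori.int, h0, h1] at hi ⊢
  rw [← integral_finsetSum _ fun b _ => hi b]
  refine setIntegral_eq_zero_of_forall_eq_zero fun u hu => ?_
  have h2 : ∀ b, (fun j : Fin n => N.ρ (update a i.succ b j.succ) ∘ (ch n (N.m (a 0))).symm) =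
      update (fun j : Fin n => N.ρ (a j.succ) ∘ (ch n (N.m (a 0))).symm) i
        (N.ρ b ∘ (ch n (N.m (a 0))).symm) := fun b => by
    funext j
    by_cases hj : j = i
    · subst hj; simp
    · rw [update_of_ne hj, update_of_ne fun h => hj (Fin.succ_injective _ h)]
  simp only [Ori.loc, h2]
  rw [← Finset.mul_sum, sum_jd_update _ _ _ (sum_fderiv_rho N hu), mul_zero]

theorem sum_piece_zero [IsManifold (𝓡 n) ∞ S] (hS : StStmt) (hγ : Tw O.χ γ) (l : Fin n) :
    ∑ a, piece O N γ 0 a = 0 := by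
  have h3 : ∀ a, piece O N γ 0 a = O.int (N.m (a l.succ))
      (fun t => γ (fun j => N.z (a (Fin.succAbove 0 j)) (sec C t)) * N.ρ (a 0) t)
        fun j => N.ρ (a j.succ) := fun a =>
    cv n S C O _ _ _ _ (fun j => N.sm _)
      (fun t ht h => loc_eq_zero' O N a _ ht fun h' => h (N.sub _ h'))
      fun t ht h => loc_eq_zero' O N a _ ht fun h' => h (N.sub _ h')
  refine sum_eq_zero_of_update _ 0 fun a => ?_
  have h1 : ∀ b (j : Fin n), update a 0 b j.succ = a j.succ := fun b j =>
    update_of_ne (Fin.succ_ne_zero _) _ _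
  have hi := fun b => integrable_piece O N hγ (update a 0 b) 0 l.succ
  simp only [h3, Ori.int, h1, Fin.succAbove_zero, update_self] at hi ⊢
  rw [← integral_finsetSum _ fun b _ => hi b]
  set s := N.m (a l.succ) with hs
  have hK : IsCompact (⋂ j : Fin n, tsupport (N.ρ (a j.succ))) :=
    (isClosed_iInter fun _ => isClosed_tsupport _).isCompact
  have hKs : (⋂ j : Fin n, tsupport (N.ρ (a j.succ))) ⊆ (ch n s).source :=
    (iInter_subset _ l).trans (N.sub _)
  have h4 := (intg n S C O s (fun x => γ fun j => N.z (a j.succ) x) _ (tw_z O N hγ _) hK hKs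
    fun x hx => lc_z N γ _ fun j => mem_iInter.1 hx _).1
  refine Eq.trans ?_ (hS n (ch n s).target (ch n s '' ⋂ j : Fin n, tsupport (N.ρ (a j.succ)))
    (fun j => N.ρ (a j.succ) ∘ (ch n s).symm)
    (fun u => O.ε (sec C ((ch n s).symm u)) s * γ fun j => N.z (a j.succ) (sec C ((ch n s).symm u)))
    l (ch n s).open_target (hK.image_of_continuousOn ((ch n s).continuousOn.mono hKs))
    ?_ (fun j => N.sm _ s) ?_ fun u hu h => ?_)
  · refine setIntegral_congr_fun (ch n s).open_target.measurableSet fun u _ => ?_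
    simp only [Ori.loc]
    rw [← Finset.sum_mul, ← Finset.mul_sum, ← Finset.mul_sum, N.sum, mul_one]
  · rintro _ ⟨t, ht, rfl⟩
    exact (ch n s).map_source (hKs ht)
  · rintro _ ⟨t, ht, rfl⟩
    rw [(ch n s).left_inv (hKs ht)]
    exact h4 t ht
  · obtain ⟨j, hj⟩ := not_forall.1 fun h' => h ⟨_, mem_iInter.2 h', (ch n s).right_inv hu⟩
    by_cases hl : j = l
    · exact .inl (comp_symm_zero hu (hl ▸ hj))
    · exact .inr ⟨j, hl, fderiv_comp_symm_zero hu hj⟩

end

theorem zero (hS : StStmt) : ZeroStmt := by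
  intro n S _ _ _ _ _ C O N f γ hn hγ hf
  have h1 : ∀ a : Fin (n + 1) → N.ι, O.int (N.m (a 0))
      (fun t => f (fun i => N.z (a i) (sec C t)) * N.ρ (a 0) t) (fun i => N.ρ (a i.succ)) =
      ∑ i : Fin (n + 1), (-1 : ℝ) ^ (i : ℕ) * piece O N γ i a := by
    intro a
    simp only [piece, Ori.int, ← integral_const_mul]
    rw [← integral_finsetSum _ fun i _ => (integrable_piece O N hγ a i 0).const_mul _]
    refine setIntegral_congr_fun (ch n _).open_target.measurableSet fun u hu => ?_
    by_cases h : ∀ i, (ch n (N.m (a 0))).symm u ∈ tsupport (N.ρ (a i))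
    · simp only [Ori.loc]
      rw [hf _ a fun i => by rw [p_sec]; exact h i, cob, Finset.sum_mul, Finset.mul_sum,
        Finset.sum_mul]
      exact Finset.sum_congr rfl fun i _ => by ring
    · obtain ⟨i, hi⟩ := not_forall.1 h
      simp only [loc_eq_zero O N a _ hu hi, mul_zero, Finset.sum_const_zero]
  rw [pair]
  simp only [h1]
  rw [Finset.sum_comm]
  refine Finset.sum_eq_zero fun i _ => ?_
  rw [← Finset.mul_sum]
  induction i using Fin.cases with
  | zero => rw [sum_piece_zero O N hS hγ ⟨0, hn⟩, mul_zero]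
  | succ i => rw [sum_piece_succ O N hγ i, mul_zero]

end Crest.Agent.N222.As

end
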