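import Crest.Agent.N222.As.Fill
import Crest.Agent.N222.As.Net
import Crest.Agent.N222.As.Ori
import Crest.Agent.N222.As.CV
import Crest.Agent.N222.As.Zero
import Crest.Agent.N222.As.St
import Crest.Agent.N222.As.Loc

/-!
# Row 222 (helper11): `C.AsphStmt`, unconditional
-/

set_option autoImplicit false

namespace Crest.Agent.N222.As

/-- the local orientation class -/
theorem locT : LocStmt := loc ori net cv intg (zero st) (deg st)

/-- **a closed aspherical manifold carries a twisted class in top degree** -/
theorem asph : C.AsphStmt := asph_of_loc locT

end Crest.Agent.N222.As
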